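import Vale.Agent.N352.Elem
import Vale.Agent.N352.DefF

/-!
# N352, block F: the public definitions agree with the working ones
-/

set_option linter.all false

open Filter Topology

namespace Vale.Agent.N352.F

open P352.GF P352R
open UniformSpace (Completion)

noncomputable section

variable {D D' : Type*} [NormedAddCommGroup D] [InnerProductSpace ℂ D] [NormedAddCommGroup D']
  [InnerProductSpace ℂ D'] {Q R : Theory D} {G : D → D} {T t : Ix → Ix → Fld D}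

/-- spins -/
@[reducible] def old (k : Dn.Rp) : P352R.P.Rp := ⟨k.n, k.ρ, k.S, k.id, k.mul, k.der⟩

/-- spins -/
@[reducible] def new (k : P352R.P.Rp) : Dn.Rp := ⟨k.n, k.ρ, k.S, k.id, k.mul, k.der⟩

theorem kil {X} : Dn.IsKil X ↔ P352R.P.IsKil X :=
  ⟨fun ⟨a, b, r, w, h, e⟩ => ⟨a, b, r, w, h, e⟩, fun ⟨a, b, r, w, h, e⟩ => ⟨a, b, r, w, h, e⟩⟩

theorem dim {d B} : Dn.Dim Q d B ↔ P352R.P.Dim Q d B := ⟨fun h => h.1, fun h => ⟨h⟩⟩

theorem fsl : Dn.FSL Q ↔ P352R.P.FSL Q :=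
  ⟨fun h A a => (h A a).imp fun _ => Exists.imp fun _ k => ⟨k.1, k.2⟩,
    fun h A a => (h A a).imp fun _ => Exists.imp fun _ k => ⟨k.1, k.2⟩⟩

theorem mfa : Dn.MfA Q ↔ P352R.P.MfA Q :=
  ⟨fun h A a => (h A a).imp fun _ => Exists.imp fun _ k =>
      ⟨fun i => have ⟨r, x⟩ := k.1 i; ⟨old r, x⟩, k.2⟩,
    fun h A a => (h A a).imp fun _ => Exists.imp fun _ k =>
      ⟨fun i => have ⟨r, x⟩ := k.1 i; ⟨new r, x⟩, k.2⟩⟩

theorem cntf (h : Dn.CntF Q) : P352R.P.CntF Q := ⟨h.1, h.2, h.3⟩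

theorem enl : Dn.IsEnl Q R ↔ P352R.P.IsEnl Q R :=
  ⟨fun h => ⟨h.1, h.2, h.3, h.4⟩, fun h => ⟨h.1, h.2, h.3, h.4⟩⟩

theorem gr : Dn.Gr Q G ↔ P352R.P.Gr Q G :=
  ⟨fun h => ⟨h.1, h.2, h.3, h.4, h.5, h.6, h.7⟩, fun h => ⟨h.1, h.2, h.3, h.4, h.5, h.6, h.7⟩⟩

theorem sect {R : Theory D'} {i} : Dn.Sect Q R i ↔ P352R.P.Sect Q R i :=
  ⟨fun h => ⟨h.1, h.2, h.3, h.4⟩, fun h => ⟨h.1, h.2, h.3, h.4⟩⟩

theorem al {X Y} (h : Dn.Al Q X Y) : P352R.P.Al Q Set.univ X Y := by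
  induction h with
  | one => exact .one
  | add _ _ _ _ _ _ a b => exact .add _ _ _ _ a b
  | smul c _ _ _ a => exact .smul c _ _ a
  | fld A B f _ _ p q r s _ a => exact .fld A B f _ _ p q r s a

theorem impr (h : P352R.P.IsImpr Q T t) : Dn.IsImpr Q T t :=
  ⟨h.1, h.2, h.3, h.4, h.5, h.6, h.7, h.8, h.9, fun F B f a b c => h.10 F B f a b c.1 c.2.1⟩

theorem chg {X g v} : P352R.P.chg (fun m n => P352R.P.hil (t m n)) X g v = ↑(Dn.cur t (fun x n => X n x) g v) := by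
  rw [← Completion.coe_toComplL (𝕜 := ℂ)]
  simp only [P352R.P.chg, Dn.cur, map_sum, Complex.ofReal_mul]
  rfl

theorem act (h : P352R.P.ConfAct Q t) : Dn.ConfAct Q t := by
  refine ⟨fun A B a b c => ?_⟩
  obtain ⟨S, S', K, K', p, q, r⟩ := h A B a b c
  refine ⟨S, S', K, K', fun m n => have p := p m n; ⟨p.1, p.2, p.3, p.4, p.5, p.6⟩,
    fun m => have q := q m; ⟨q.1, q.2, q.3, q.4, q.5, q.6⟩, fun X f w v k l F hF => ?_⟩
  have e : (∑ n, Dn.hil A (pd n fun x => X n x * f x) v) =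
      ↑(∑ n, A (pd n fun x => X n x * f x) v) := by
    rw [← Completion.coe_toComplL (𝕜 := ℂ), map_sum]
    rfl
  simp only [← chg, e]
  exact r X f w v (kil.1 k) l.1 l.2.1 F hF

theorem acts {X k d} {B B' : Fin k.n → Fn → D → Completion D} (h : P352R.P.ActS t X k d B B') :
    Dn.ActS t X (new k) d B B' := by
  refine ⟨fun a f w v l F hF => ?_⟩
  simp only [← chg]
  exact h a f w v F l hF

theorem descs {e B} (h : P352R.P.DescS Q G t e B) : Dn.DescS Q G t e B := by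
  obtain ⟨n, k, d, c, α, a, B, B', p, q⟩ := h
  exact ⟨n, fun i => new (k i), d, c, α, a, B, B', fun i => have p := p i
    ⟨fun a => (p.loc a).imp fun _ l => ⟨l.1, l.2, l.3, l.4, l.5, fun C C' f g v z u u' w _ =>
      l.6 C C' f g v z u u' w⟩, p.adj, p.cov, fun X x => acts (p.act X (kil.1 x))⟩, q⟩

theorem cfs (h : P352R.P.CFS Q G t) : Dn.CFS Q G t := by
  refine ⟨fun X Y Y' a b F hF => ?_, fun e k d Φ Φ' a b => ?_⟩
  · simp only [← chg]
    exact h.ward X Y Y' F (kil.1 a) (al b) hF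
  have h := h.mp e (old k) d Φ Φ' a fun i => ⟨dim.1 (b i).1, (b i).2⟩
  exact ⟨fun r X x => acts (h.1 r X x), fun i => descs (h.2 i)⟩

theorem desc (h : N352.Desc Q G t) : Dn.Desc Q G t := fun B b =>
  have ⟨n, e, C, p, q⟩ := h B b
  ⟨n, e, C, fun j => descs (p j), q⟩

theorem conf (h : N352.Conf Q G T t) : Dn.Conf Q G T t :=
  ⟨h.form, impr h.impr, act h.act, cfs h.cfs, fun a b => desc (h.desc (mfa.1 a) (fsl.1 b))⟩

theorem cy : (∀ w, Dn.Cyc Q w) ↔ GI.Cy Q :=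
  ⟨fun h S a b => top_unique fun w _ => h w S a b, fun h w S a b => (h S a b).ge trivial⟩

theorem stress (h : P352R.P.Stress0 Q T) : Dn.Stress Q T := ⟨h.1, h.2, h.3, h.4, h.5⟩

end

end Vale.Agent.N352.F
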