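import Vale.Agent.N352.F.Sp
import Vale.Agent.P352R.Cf.All
import Vale.Agent.P352R.Cf.Ap3

/-!
# N352, block F: countably many covariant fields are sums of multiplets with finite scaling laws,
without generators (helper21)
-/

set_option linter.all false

open Filter Topology

namespace Vale.Agent.N352.F

open Vale.Agent.P352 Vale.Agent.P352.GF Vale.Agent.P352.H746 Vale.Agent.P352.H15
open Vale.Agent.P352.H246 Vale.Agent.P352.H496 Vale.Agent.P352X
open Vale.Agent.P352R.Cf Vale.Agent.P352R.Cf.De Vale.Agent.P352R.Cf.Cb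
open Vale.Agent.P352R.Ct (Wv rs ac ac_rs)

noncomputable section

variable {D : Type*} [NormedAddCommGroup D] [InnerProductSpace ℂ D] {Q : Theory D} {G : D → D}
  {T : Ix → Ix → Fld D} {B : Fld D} {f g : Fn}

namespace Cn

/-- the weak derivative along a curve of similitudes -/
theorem wder {s : ℝ → ℝ} {L : ℝ → Ix → V} {a : ℝ → V} {w : Ix → V} {r : ℝ} {c : V}
    (K : Crv s L a w r c) (z : D) {ψ : ℝ → D} {ψ' : D} {y : ℂ} (hψ : HasDerivAt ψ ψ' 0)
    (h0 : HasDerivAt (fun e => inner ℂ z (Q.U (s e) (L e) (a e) (ψ 0))) y 0)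
    (h1 : ContinuousAt (fun e => inner ℂ z (Q.U (s e) (L e) (a e) ψ')) 0) :
    HasDerivAt (fun e => inner ℂ z (Q.U (s e) (L e) (a e) (ψ e))) (y + inner ℂ z ψ') 0 := by
  have t1 := hasDerivAt_iff_tendsto_slope.1 h0
  have t3 : Tendsto (fun e => inner ℂ z (Q.U (s e) (L e) (a e) ψ')) (𝓝[≠] 0)
      (𝓝 (inner ℂ z ψ')) := by
    have h2 := h1.tendsto
    rw [U_at0 K] at h2
    exact h2.mono_left nhdsWithin_le_nhds
  have t2 : Tendsto (fun e => Q.U (s e) (L e) (a e) (slope ψ 0 e - ψ')) (𝓝[≠] 0) (𝓝 0) := by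
    have h2 := (hasDerivAt_iff_tendsto_slope.1 hψ).sub_const ψ'
    rw [sub_self] at h2
    rw [tendsto_zero_iff_norm_tendsto_zero] at h2 ⊢
    refine h2.congr fun e => ?_
    rw [U_nrm0 (K.sp e) (K.lor e)]
  have t4 := (t1.add ((tendsto_const_nhds (x := z)).inner (𝕜 := ℂ) t2)).add t3
  rw [inner_zero_right, add_zero] at t4
  rw [hasDerivAt_iff_tendsto_slope]
  refine t4.congr fun e => ?_
  have e2 : slope ψ 0 e = ((e : ℂ))⁻¹ • (ψ e - ψ 0) := by
    rw [slope_def_module, sub_zero, ← Complex.ofReal_inv]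
    rfl
  rw [e2, slope_def_module, slope_def_module, H746.U_sub' (K.sp e) (K.lor e),
    U_smul (K.sp e) (K.lor e), H746.U_sub' (K.sp e) (K.lor e)]
  simp only [U_at0 K, inner_sub_right, inner_smul_right, sub_zero, Complex.real_smul,
    Complex.ofReal_inv]
  ring

theorem tcur {X : V → V} (hX : IsSim 0 X) (hg : GF.IsTest g) (n : Ix) :
    GF.IsTest fun x => (GF.eta n : ℂ) * X x n * g x := by
  obtain ⟨c, w, -, h⟩ := hX
  refine Ap.sw_congr (Ap.sw_cmul (GF.eta n) (Ap.sw_rmul (u := fun x => X x n) ?_ hg)) fun x =>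
    mul_assoc _ _ _
  simp only [h]
  fun_prop

theorem cur_add (hT : ∀ m n, Q.fld (T m n)) {X X' : V → V} (hX : IsSim 0 X) (hX' : IsSim 0 X')
    (c : ℝ) (hg : GF.IsTest g) (u : D) : Dn.cur T (fun z => X z + c • X' z) g u =
      Dn.cur T X g u + (c : ℂ) • Dn.cur T X' g u := by
  simp only [Dn.cur, Finset.smul_sum, ← Finset.sum_add_distrib]
  refine Finset.sum_congr rfl fun n _ => ?_
  rw [← Q.lin _ _ _ _ _ (hT o n) (tcur hX hg n) (tcur hX' hg n)]
  refine congrArg (fun k => T o n k u) (funext fun x => ?_)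
  simp only [Pi.add_apply, Pi.smul_apply, smul_eq_mul]
  push_cast
  ring

theorem gen (hP : Dn.PGen Q T) {L : ℝ → Ix → V} {w : Ix → V} (L0 : L 0 = GF.one)
    (hl : ∀ e, IsLor (L e)) (dL : ∀ m n, HasDerivAt (fun e => L e m n) (w m n) 0) :
    Dn.Gen Q (fun e => Q.U 1 (L e) 0) (Dn.cur T (xw w)) :=
  have hX : ∀ z n, xw w z n = (0 : V) n + 0 * z n + ∑ m, z m * w m n := fun z n => by simp [xw]
  hP L (fun _ => 0) (xw w) L0 rfl hl ⟨0, w, anti L0 hl dL, hX⟩ fun n x =>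
    (Co.crv_lor L0 hl dL).dX hX n x

/-- the derivative of a matrix element is linear in the velocity -/
theorem der (hT : ∀ m n, Q.fld (T m n)) (hP : Dn.PGen Q T) (hB : Q.fld B) (hf : GF.IsTest f)
    (hc : HasCompactSupport f) (z : D) : ∃ S : Ix → Ix → ℂ, ∀ (L : ℝ → Ix → V) (w : Ix → V),
      L 0 = GF.one → (∀ e, IsLor (L e)) → (∀ m n, HasDerivAt (fun e => L e m n) (w m n) 0) →
      HasDerivAt (fun e => inner ℂ z (Q.U 1 (L e) 0 (B (fun x => f (sim 1 (L e) 0 x)) Q.vac)))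
        (∑ m, ∑ n, w m n * S m n) 0 := by
  let q : (Ix → V) → ℝ → ℂ := fun w R =>
    inner ℂ z (Dn.cm (Dn.cur T (xw w)) (cutF R) B f Q.vac)
  have td : ∀ w, Tendsto (q (pj w)) atTop (𝓝 (limUnder atTop (q (pj w)))) := fun w => by
    obtain ⟨L, L0, hl, dL⟩ := exists_lor (pj_as w)
    obtain ⟨c, h, -⟩ := gen hP L0 hl dL cutF B f z isCutoff_cutF hB ⟨hf, hc, Set.subset_univ _⟩
    exact tendsto_nhds_limUnder ⟨c, h⟩
  obtain ⟨S, hS⟩ := lin (fun w => Complex.I * limUnder atTop (q (pj w)) +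
      inner ℂ z (B (vf (xw (pj w)) f) Q.vac)) fun w w' c => by
    have e : limUnder atTop (q (pj (w + c • w'))) =
        limUnder atTop (q (pj w)) + c * limUnder atTop (q (pj w')) := by
      refine tendsto_nhds_unique (td _) (((td w).add ((td w').const_mul (c : ℂ))).congr' ?_)
      filter_upwards [isTest_cutoff isCutoff_cutF] with R hR
      have k : ∀ u v, B f (u + (c : ℂ) • v) = B f u + (c : ℂ) • B f v := fun u v =>
        ((fm hB hf).map_add _ _).trans (congrArg _ ((fm hB hf).map_smul _ _))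
      simp only [q, Dn.cm, xw_add, cur_add hT (sim_pj w) (sim_pj w') c hR, k, inner_sub_right,
        inner_add_right, inner_smul_right]
      ring
    rw [e, xw_add, vf_add,
      Q.lin _ _ _ _ _ hB (isTest_vf (sim_pj w) hf) (isTest_vf (sim_pj w') hf),
      inner_add_right, inner_smul_right]
    ring
  refine ⟨S, fun L w L0 hl dL => ?_⟩
  have K := Co.crv_lor L0 hl dL
  have hX : ∀ z n, xw w z n = (0 : V) n + 0 * z n + ∑ m, z m * w m n := fun z n => by simp [xw]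
  have g := gen hP L0 hl dL cutF B
  obtain ⟨c, h1, h2⟩ := g f z isCutoff_cutF hB ⟨hf, hc, Set.subset_univ _⟩
  obtain ⟨c', -, h3⟩ := g (vf (xw w) f) z isCutoff_cutF hB
    ⟨isTest_vf ⟨0, w, anti L0 hl dL, hX⟩ hf,
      hc.isCompact.of_isClosed_subset (isClosed_tsupport _) NF.f1_tsup, Set.subset_univ _⟩
  rw [← hS, pj_eq (anti L0 hl dL), h1.limUnder_eq]
  obtain ⟨F, rfl⟩ := exists_fl hf
  have h4 := K.der ((fcl hB Q.vac).restrictScalars ℝ) F
  simp only [ContinuousLinearMap.coe_restrictScalars', fcl_apply, fl_vfS hX] at h4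
  have h5 := wder (Q := Q) K z h4 (by simpa only [K.cs_zero] using h2) h3.continuousAt
  refine h5.congr_of_eventuallyEq (Eventually.of_forall fun e => ?_)
  simp only [fl_sim 1 one_pos (hl e)]
  rfl

variable {K : Submodule ℂ (Fld D)}

/-- the matrix elements with compactly supported test functions -/
def Lc (Q : Theory D) (K : Submodule ℂ (Fld D)) : Set (Wk Q K →ₗ[ℂ] ℂ) :=
  {l | ∃ w f, HasCompactSupport f.1 ∧ ∀ ψ : Wk Q K, l ψ = inner ℂ w (ψ.1 f)}

theorem dens (hB : Q.fld B) (v : D) (k : ∀ f, GF.IsTest f → HasCompactSupport f → B f v = 0)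
    (hf : GF.IsTest f) : B f v = 0 := by
  obtain ⟨F, rfl⟩ := exists_fl hf
  obtain ⟨g, hg, l⟩ := exists_compact_seq F
  exact tendsto_nhds_unique (((fld_cont hB v).tendsto F).comp l)
    (tendsto_const_nhds.congr fun n =>
      (k _ (isTest_fl (g n)) (hasCompactSupport_fl (hg n))).symm)

theorem lc_sep (h : Kc Q K) (ψ : Wk Q K) (k : ∀ l ∈ Lc Q K, l ψ = 0) : ψ = 0 := by
  have k' : ∀ f : {f : Fn // GF.IsTest f}, HasCompactSupport f.1 → ψ.1 f = 0 := fun f c =>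
    ext_inner_left ℂ fun v =>
      (k (((innerₛₗ ℂ v).comp (LinearMap.proj f)).comp (K.map (rs Q)).subtype)
        ⟨v, f, c, fun _ => rfl⟩).trans (inner_zero_right _).symm
  obtain ⟨_, B, hB, rfl⟩ := ψ
  exact Subtype.ext (funext fun f =>
    dens (h.fld B hB) Q.vac (fun g a c => k' ⟨g, a⟩ c) f.2)

theorem mf_of (h : Kc Q K) {Λ} (hl : Lact h.sg Λ) (B : Fld D) (hB : B ∈ K) :
    ∃ (n : ℕ) (C : Fin n → Fld D), (∀ i, ∃ k Φ a, IsMf Q k Φ ∧ C i = Φ a) ∧
      ∀ f v, GF.IsTest f → B f v = ∑ i, C i f v := by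
  obtain ⟨k, y, c, e1, e2⟩ := rp _ _ _ ⟨rs Q B, B, hB, rfl⟩ hl (fo (fd2 _) _ _ hl h.rank _)
  choose Φ p1 p2 using fun a => (y a).2
  refine ⟨k.n, fun i => c i • Φ i, fun i => ⟨k, fun a => c i • Φ a, i,
    h.isMf k _ (fun a => K.smul_mem _ (p1 a)) fun L a hL => ?_, rfl⟩, fun f v hf => ?_⟩
  · have := congrArg (K.map (rs Q)).subtype (e2 L a hL)
    simp only [map_sum, map_smul, Submodule.subtype_apply, h.sg_val hL] at this
    simp only [map_smul, p2]
    rw [this, Finset.smul_sum]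
    exact Finset.sum_congr rfl fun b _ => smul_comm _ _ _
  · have e := congrArg (K.map (rs Q)).subtype e1
    simp only [map_sum, map_smul, Submodule.subtype_apply, ← p2] at e
    have := h.sep _ (K.sub_mem hB (K.sum_mem (t := Finset.univ) fun b _ =>
      K.smul_mem (c b) (p1 b))) (fun g hg => by
        have := congrFun e ⟨g, hg⟩
        simp only [← map_smul, ← map_sum] at this
        exact sub_eq_zero.2 this) f v hf
    simpa only [Pi.sub_apply, Finset.sum_apply, sub_eq_zero] using this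

theorem lact (h : Kc Q K) (hT : ∀ m n, Q.fld (T m n)) (hP : Dn.PGen Q T)
    (mul : ∀ L L', IsLor L → IsLor L' → ∃ ε : ℂ, (ε = 1 ∨ ε = -1) ∧ ∀ B ∈ K, ∀ f, GF.IsTest f →
      Q.U 1 (cp L L') 0 (B f Q.vac) = ε • Q.U 1 L 0 (Q.U 1 L' 0 (B f Q.vac))) :
    Lact h.sg (Lc Q K) where
  id := h.sg_one
  mul L L' hL hL' := by
    obtain ⟨ε, e, m⟩ := mul L L' hL hL'
    have := h.sg_mul hL hL' ε m
    rcases e with rfl | rfl
    · exact .inl (this.trans (one_smul _ _))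
    · exact .inr (this.trans (LinearMap.ext fun y => Subtype.ext
        (neg_one_smul ℂ ((h.sg L * h.sg L') y).1)))
  sep := lc_sep h
  der := by
    rintro ⟨_, B, hB, rfl⟩ l ⟨z, f, c, e⟩
    obtain ⟨S, hS⟩ := der hT hP (h.fld B hB) f.2 c z
    refine ⟨S, fun L w L0 hL dL => ?_⟩
    have := hS L w L0 hL dL
    simp only [e, fun t => h.sg_app (hL t)]
    exact this

/-- a field that annihilates the vacuum vanishes -/
def Sv (Q : Theory D) : Prop := ∀ B, Q.fld B → (∀ f, GF.IsTest f → B f Q.vac = 0) →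
  ∀ f v, GF.IsTest f → B f v = 0

theorem mf_par (g : Gr Q G) (hv : G Q.vac = Q.vac) (hT : ∀ m n, Q.fld (T m n))
    (hP : Dn.PGen Q T) (h : P352R.P.CntF Q) (sv : Sv Q) {S : Set (Fld D)} (hS : S.Countable)
    (k : ∀ B, Q.fld B ↔ B ∈ Submodule.span ℂ S) {e : ℂ} (he : e = 1 ∨ e = -1) (hB : B ∈ par g S e) :
    ∃ (n : ℕ) (C : Fin n → Fld D), (∀ i, ∃ k Φ a, IsMf Q k Φ ∧ C i = Φ a) ∧
      ∀ f v, GF.IsTest f → B f v = ∑ i, C i f v := by
  have fl : ∀ B ∈ par g S e, Q.fld B := fun B a => (k B).2 a.1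
  have c : Kc Q (par g S e) := by
    refine ⟨fl, ⟨S, hS, fun B a => a.1⟩, fun L B hL a => ?_, fun B a => sv B (fl B a)⟩
    obtain ⟨C, c1, -, c2⟩ := h.cov 1 L B one_pos hL (fl B a)
    refine ⟨C, ⟨(k C).1 c1, fun f v hf => ?_⟩, c2⟩
    obtain ⟨w, rfl⟩ := onto g hL v
    rw [← g.GU 1 L 0 w one_pos hL, ← c2 f _ hf, ← c2 f _ hf,
      a.2 _ w (Ap.test_sim one_pos hL 0 hf), U_smul one_pos hL, g.GU 1 L 0 _ one_pos hL]
  refine mf_of c (lact c hT hP fun L L' hL hL' => ?_) B hB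
  rcases g.mul 1 L 0 1 L' 0 one_pos one_pos hL hL' with m | ⟨-, -, m⟩
  · exact ⟨1, .inl rfl, fun B a f hf => by rw [m, sim0, mul_one, one_smul]⟩
  · refine ⟨e, he, fun B a f hf => ?_⟩
    have p := a.2 f Q.vac hf
    rw [hv] at p
    have l : IsLor (cp L L') := BW.ue_lor hL hL'
    rw [m, sim0, mul_one, ← g.GU 1 _ 0 _ one_pos l, ← U_smul one_pos l, ← p]

theorem cnt (g : Gr Q G) (hv : G Q.vac = Q.vac) (hT : ∀ m n, Q.fld (T m n))
    (hP : Dn.PGen Q T) (h : Dn.CntF Q) (sv : Sv Q) : MfAll Q ∧ FSL Q := by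
  refine ⟨fun B hB => ?_, A3.fsl (fun s s' v hs hs' => ?_) (fun v => ?_) (cntf h)
    fun K k B a => sv B (k B a)⟩
  · obtain ⟨S, hS, e⟩ := (cntf h).cnt
    obtain ⟨C, C', a, b, d⟩ := g.split B hB
    obtain ⟨n, E, e1, e2⟩ := mf_par g hv hT hP (cntf h) sv hS e (.inl rfl) (B := C)
      ⟨(e C).1 (Q.bose_fld C a), fun f v hf => by rw [g.bose C f v a hf, one_smul]⟩
    obtain ⟨n', E', e1', e2'⟩ := mf_par g hv hT hP (cntf h) sv hS e (.inr rfl) (B := C')
      ⟨(e C').1 b.1, fun f v hf => by rw [b.2 f v hf, neg_one_smul]⟩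
    refine ⟨n + n', Fin.append E E', fun i => ?_, fun f v hf => ?_⟩
    · refine Fin.addCases (fun i => ?_) (fun i => ?_) i
      · rw [Fin.append_left]; exact e1 i
      · rw [Fin.append_right]; exact e1' i
    · simp only [Fin.sum_univ_add, Fin.append_left, Fin.append_right]
      rw [d f v hf, e2 f v hf, e2' f v hf]
  · rcases g.mul s _ 0 s' _ 0 hs hs' H496.isLor_one H496.isLor_one with m | ⟨m, -⟩
    · rw [m, ← P352R.Ct.one_one, sim0]
    · exact (m rfl).elim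
  · have k : Tendsto (fun e : ℝ => Real.exp e) (𝓝 0) (𝓝 1) := by
      simpa only [Real.exp_zero] using Real.continuous_exp.tendsto 0
    have := (h.cts v).tendsto.comp k
    rwa [show Q.U 1 GF.one 0 v = v from U1_zero_all (Q := Q) v] at this

end Cn

/-- **Row Cn**, with the separating property of the vacuum as a hypothesis -/
theorem cnt_of' (g : P352R.P.Gr Q G) (hv : G Q.vac = Q.vac) (hT : ∀ m n, Q.fld (T m n))
    (hP : Dn.PGen Q T) (h : Dn.CntF Q)
    (sv : ∀ B, Q.fld B → (∀ f, GF.IsTest f → B f Q.vac = 0) → ∀ f v, GF.IsTest f → B f v = 0) :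
    P352R.P.MfA Q ∧ P352R.P.FSL Q := by
  obtain ⟨a, b⟩ := Cn.cnt ⟨g.1, g.2, g.3, g.4, g.5, g.6, g.7⟩ hv hT hP h sv
  refine ⟨fun A hA => ?_, b⟩
  obtain ⟨n, B, c, d⟩ := a A hA
  refine ⟨n, B, fun i => ?_, d⟩
  obtain ⟨k, Φ, x, y, z⟩ := c i
  exact ⟨⟨k.n, k.ρ, k.S, k.id, k.mul, k.der⟩, Φ, x, y, z⟩

/-- **Row Cn** -/
theorem cnt_of (g : P352R.P.Gr Q G) (hv : G Q.vac = Q.vac) (hT : ∀ m n, Q.fld (T m n))
    (hP : Dn.PGen Q T) (h : Dn.CntF Q) : P352R.P.MfA Q ∧ P352R.P.FSL Q :=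
  cnt_of' g hv hT hP h fun _ hB z _ v hf => sepF g hv hB z hf v

end

end Vale.Agent.N352.F
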