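import Vale.Agent.N352.F.Sp
import Vale.Agent.P352R.Cv2
import Vale.Agent.P352R.Br

/-!
# N352, block F: stress tensors whose charges generate the Poincaré group on the vacuum
-/

set_option linter.all false

open Filter Topology
open scoped ComplexConjugate

namespace Vale.Agent.N352.F

open Vale.Agent.P352X Vale.Agent.P352L Vale.Agent.P352R
open Vale.Agent.P352 Vale.Agent.P352.GF Vale.Agent.P352.BW Vale.Agent.P352.H246
open Vale.Agent.P352.H496 Vale.Agent.P352.H755 Vale.Agent.P352.H15 Vale.Agent.P352.H746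
open Fss hiding U_dil u_inv inv_u u_adj dl_herm dl_cov dl_cons dl_charge dl_pch
open Fss.G StA Cw
open Complex (I)

noncomputable section

variable {D : Type*} [NormedAddCommGroup D] [InnerProductSpace ℂ D] {Q : Theory D} {G : D → D}
  {T S : Ix → Ix → Fld D} {B : Fld D} {f : Fn} {s : ℝ} {F : ℝ → Fn} {X : V → V}

theorem cm_split (g : P.Gr Q G) (hB : Q.fld B) (hf : IsTest f) {j : Fld D} {k : Fn}
    (l : IsLinearMap ℂ (j k)) {C C' : Fld D} (e : ∀ f v, IsTest f → B f v = C f v + C' f v)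
    (v : D) : P.cm j k B f v = P.cm j k C f v + P.cm j k C' f v := by
  simp only [P.cm, e f _ hf, l.map_add]
  abel

/-- from homogeneous fields to all fields -/
theorem op_all (g : P.Gr Q G) {j : Fld D} (hj : Dens Q j) (hF : IsCutoff F) (hf : P.In Set.univ f)
    (Z : Fld D → D → D)
    (a : ∀ B C C', Q.fld B → (∀ f v, IsTest f → B f v = C f v + C' f v) →
      ∀ v, Z B v = Z C v + Z C' v)
    (b : ∀ B, Q.fld B → Sm Q (Z B))
    (c : ∀ B (σ : ℂ), Q.fld B → (∀ f v, IsTest f → B f (G v) = σ • G (B f v)) →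
      ∀ v, Z B (G v) = σ • G (Z B v))
    (d : ∀ B w, Q.fld B → Tendsto (fun r => inner ℂ w (P.cm j (F r) B f Q.vac)) atTop
      (𝓝 (inner ℂ w (Z B Q.vac)))) (hB : Q.fld B) :
    ∀ᶠ r in atTop, ∀ v, P.cm j (F r) B f v = Z B v := by
  obtain ⟨C, C', c1, c2, e⟩ := g.split B hB
  have c0 := Q.bose_fld _ c1
  filter_upwards [op_of_vac g hj false (B := C) c1 hf (b C c0) (c C _ c0 fun f v hf => by
      simpa using g.bose C f v c1 hf) hF fun w => d C w c0,
    op_of_vac g hj true (B := C') c2 hf (b C' c2.1) (c C' _ c2.1 fun f v hf => by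
      simpa using c2.2 f v hf) hF fun w => d C' w c2.1, eventually_gt_atTop 0] with r p q hr v
  rw [cm_split g hB hf.1 (hj.lp (G := G) (cut_test hF hr)).lin e, p, q, a B C C' hB e]

theorem gen_crv (p : Dn.PGen Q T) (hX : IsSim 0 X) : ∃ u, Dn.Gen Q u (P.cur T X) ∧
    ∀ S, Dn.PGen Q S → Dn.Gen Q u (P.cur S X) := by
  obtain ⟨y, w, hw, e⟩ := id hX
  obtain ⟨L, L0, hL, dL⟩ := exists_lor hw
  have K : Crv (fun _ => 1) L (fun e => e • y) w 0 y :=
    ⟨rfl, L0, zero_smul _ _, fun _ => one_pos, hL, hasDerivAt_const _ _, dL, fun n => by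
      simpa using hasDerivAt_mul_const (x := (0 : ℝ)) (y n)⟩
  have k := fun S (p : Dn.PGen Q S) => p L _ X L0 K.a0 hL hX fun n x => K.dX e n x
  exact ⟨_, k T p, k⟩

theorem same_cur (g : P.Gr Q G) (hT : ∀ m n, Q.bose (T m n)) (hS : ∀ m n, Q.bose (S m n))
    (p : Dn.PGen Q T) (q : Dn.PGen Q S) (hX : IsSim 0 X) (hF : IsCutoff F) (hB : Q.fld B)
    (hf : P.In Set.univ f) : ∀ᶠ r in atTop, ∀ v,
      P.cm (P.cur S X) (F r) B f v = P.cm (P.cur T X) (F r) B f v := by
  obtain ⟨u, a, b⟩ := gen_crv p hX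
  have e : ∀ B, Q.fld B → ∀ k v, P.cm (fun g v => P.cur S X g v - P.cur T X g v) k B f v =
      P.cm (P.cur S X) k B f v - P.cm (P.cur T X) k B f v := fun B hB k v => by
    simp only [P.cm, ← Fss.fl_apply hB hf.1, map_sub]
    abel
  refine (op_all g ((dens_cur hS hX).sub (dens_cur hT hX)) hF hf (fun _ _ => 0)
    (fun _ _ _ _ _ _ => (add_zero _).symm) (fun _ _ => sm_zero) (fun _ σ _ _ _ => ?_)
    (fun B w hB => ?_) hB).mono fun r hr v => sub_eq_zero.1 ((e B hB _ v).symm.trans (hr v))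
  · rw [show G 0 = 0 from map_zero (gm g), smul_zero]
  obtain ⟨c, c1, c2⟩ := a F B f w hF hB hf
  obtain ⟨d, d1, d2⟩ := b S q F B f w hF hB hf
  obtain rfl : c = d := mul_left_cancel₀ Complex.I_ne_zero (c2.unique d2)
  simp only [e B hB, inner_sub_right, inner_zero_right]
  exact sub_self c ▸ d1.sub c1

theorem cur_tr (hT : ∀ m n, Q.fld (T m n)) (n : Ix) {k : Fn} (hk : IsTest k) (z : D) :
    P.cur T (fun _ => bas n (eta n)) k z = T o n k z := by
  rw [P.cur, Finset.sum_eq_single n (fun l _ hl => ?_) (by simp)]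
  · simp [bas, P352W.Ft.eta_sqC]
  · simpa [bas, hl] using lin0 (hT o l) z

/-- **equal charges** -/
theorem same_of (g : P.Gr Q G) (hT : ∀ m n, Q.bose (T m n)) (hS : ∀ m n, Q.bose (S m n))
    (p : Dn.PGen Q T) (q : Dn.PGen Q S) : Dn.Same Q T S := fun F B f hF hB hf => by
  have t := fun m n => Q.bose_fld _ (hT m n)
  have s := fun m n => Q.bose_fld _ (hS m n)
  filter_upwards [eventually_all.2 fun n =>
      same_cur g hT hS p q (const_sim (bas n (eta n))) hF hB hf, eventually_all.2 fun l =>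
      eventually_all.2 fun n => same_cur g hT hS p q (rot_sim l n) hF hB hf,
    eventually_gt_atTop 0] with r a b hr l n v
  have k := cut_test hF hr
  refine ⟨by simpa only [Dn.cm, P.cm, cur_tr t n k, cur_tr s n k] using a n v, ?_⟩
  have := b l n v
  simp only [P.cm, show ∀ T, P.cur T = ND.cur (D := D) T from fun _ => rfl, cur_rot t l n k,
    cur_rot s l n k, ← Fss.fl_apply hB hf.1, map_sub] at this
  simp only [Dn.cm, ← Fss.fl_apply hB hf.1, show Dn.xg = xg from rfl]
  exact (by abel : _ = _).trans (this.trans (by abel))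

/-- the charges act as the translations -/
theorem st0_of (g : P.Gr Q G) (h : Dn.Stress Q T) (p : Dn.PGen Q T) : P.Stress0 Q T := by
  refine ⟨h.1, h.2, h.3, h.4, h.5, fun F n B f v w hF hB hf hc => ?_⟩
  have t := fun m n => Q.bose_fld _ (h.bose m n)
  have i : P.In Set.univ f := ⟨hf, hc, Set.subset_univ _⟩
  have d := t_pd n hf
  refine tendsto_const_nhds.congr' ((op_all g (dens_one (h.bose o n)) hF i
    (fun B v => (I * eta n) • B (pd n f) v) (fun B C C' _ e v => by rw [e _ _ d, smul_add])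
    (fun B hB => ⟨1, fun _ => I * eta n, fun _ => B, fun _ => pd n f,
      fun _ => ⟨hB, Ap.in_pd n i⟩, fun v => by simp⟩)
    (fun B σ _ e v => ?_) (fun B w hB => ?_) hB).mono fun r hr => congrArg _ (hr v).symm)
  · rw [e _ _ d, smul_comm]
    exact congrArg _ (map_smul (gm g) _ _).symm
  set y : V := bas n (eta n) with hy
  have o1 := H496.isLor_one
  have K : ∀ y : V, Crv (fun _ => 1) (fun _ => GF.one) (fun e => e • y) (fun _ _ => 0) 0 y :=
    fun y => ⟨rfl, rfl, zero_smul _ _, fun _ => one_pos, fun _ => o1, hasDerivAt_const _ _,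
      fun _ _ => hasDerivAt_const _ _, fun n => by
      simpa using hasDerivAt_mul_const (x := (0 : ℝ)) (y n)⟩
  have hX : ∀ (y z : V) n, y n = y n + 0 * z n + ∑ m, z m * (0 : ℝ) := fun y z n => by simp
  obtain ⟨c, c1, c2⟩ := p _ _ _ rfl (K y).a0 (K y).lor (const_sim y)
    (fun n x => (K y).dX (hX y) n x) F B f w hF hB i
  obtain ⟨f, rfl⟩ := exists_fl hf
  have c3 := (K (-y)).der ((innerSL ℂ w ∘L fcl hB Q.vac).restrictScalars ℝ) f
  have e : vf (fun _ => -y) (P352.fl f) = fun x => (-eta n : ℂ) * pd n (P352.fl f) x := by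
    funext x
    simp [vf, hy, bas, apply_ite]
  have c4 : I * c = inner ℂ w ((-eta n : ℂ) • B (pd n (P352.fl f)) Q.vac) := by
    rw [← lin1 hB d, ← e, ← fl_vfS (hX (-y))]
    refine c2.unique (c3.congr_of_eventuallyEq (.of_forall fun e => ?_))
    have := Q.transl B (e • y) _ Q.vac hB (isTest_fl ((K (-y)).cs f e))
    rw [Q.U_vac _ _ _ one_pos o1] at this
    show inner ℂ w _ = inner ℂ w (B (P352.fl ((K (-y)).cs f e)) Q.vac)
    rw [this, Crv.cs, ← fl_sim 1 one_pos o1]
    simp [sim_dil]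
    rfl
  have c5 : c = inner ℂ w ((I * eta n) • B (pd n (P352.fl f)) Q.vac) := by
    rw [inner_smul_right] at c4 ⊢
    linear_combination (-I) * c4 + c * Complex.I_mul_I
  refine c5 ▸ c1.congr' ((eventually_gt_atTop 0).mono fun r hr => ?_)
  simp only [Dn.cm, P.cm, show Dn.cur T = P.cur T from rfl, hy, cur_tr t n (cut_test hF hr)]

/-- the dilates of a stress tensor have the same charges -/
theorem pgen_dl (R : M1 Q) (hs : 0 < s) (hb : ∀ m n, Q.fld (T m n)) (hC : Cd Q)
    (p : Dn.PGen Q T) : Dn.PGen Q fun m n => dl Q s hs (T m n) := by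
  intro L a X L0 a0 hL hX dX F B f w hF hB hf
  obtain ⟨k, c, C, h1, h⟩ := key R hC hB hs
  have s0 : (s : ℂ) ≠ 0 := Complex.ofReal_ne_zero.2 hs.ne'
  set X' : V → V := fun z => s⁻¹ • X (s • z) with hX'
  have hX1 : IsSim 0 X' := by
    obtain ⟨c, w, h1, h2⟩ := hX
    refine ⟨s⁻¹ • c, w, h1, fun z n => ?_⟩
    simp only [hX', Pi.smul_apply, h2, smul_eq_mul, mul_assoc, ← Finset.mul_sum]
    field_simp
  have uv : ∀ s hs, u Q s hs Q.vac = Q.vac := fun s hs => Q.U_vac _ _ _ hs H496.isLor_one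
  choose d d1 d2 using fun i => p L (fun e => s⁻¹ • a e) X' L0 (by rw [a0, smul_zero]) hL hX1
    (fun n x => ((dX n (s • x)).const_mul s⁻¹).congr_of_eventuallyEq (.of_forall fun e => by
      simp only [sim, Pi.smul_apply, smul_eq_mul, mul_assoc, ← Finset.mul_sum]
      field_simp)) _ (C i) (ds s f) (u Q s⁻¹ (inv_pos.2 hs) w) (cut_ds hF hs) (h1 i)
    ⟨ds_test hs hf.1, ds_cpt hs hf.2.1, Set.subset_univ _⟩
  refine ⟨∑ i, c i * d i, (tendsto_finset_sum Finset.univ fun i _ =>
    (d1 i).const_mul (c i)).congr' ((isTest_cutoff hF).mono fun r hr => ?_), ?_⟩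
  · have ht : IsTest fun x => (s : ℂ) * ds s (F r) x := Ap.sw_cmul s (ds_test hs hr)
    have e : ∀ z, Dn.cur (fun m n => dl Q s hs (T m n)) X (F r) z =
        u Q s hs (curL hb hX1 ht (u Q s⁻¹ (inv_pos.2 hs) z)) := fun z => by
      rw [curL_apply, ND.cur, Dn.cur, map_sum]
      refine Finset.sum_congr rfl fun n _ => ?_
      rw [Fss.dl]
      congr 2
      funext x
      simp only [ds_apply, hX', Pi.smul_apply, smul_eq_mul]
      push_cast
      field_simp
    beta_reduce
    rw [Dn.cm, e, e, comm R hs h hf.1]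
    simp only [curL_apply, uv]
    rfl
  · have := HasDerivAt.fun_sum (u := Finset.univ) fun i _ => (d2 i).const_mul (c i)
    simp only [mul_left_comm (c _), ← Finset.mul_sum] at this
    refine this.congr_of_eventuallyEq (.of_forall fun e => ?_)
    have b := h f Q.vac hf.1
    rw [uv] at b
    beta_reduce
    rw [b, (U_dil R hs (hL e) _ _).2, ← smul_inv_smul₀ hs.ne' (a e), ← (U_dil R hs (hL e) _ _).1,
      u_adj R, smul_inv_smul₀ hs.ne', show Q.U 1 (L e) (s⁻¹ • a e) (∑ i, _) = _ from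
        map_sum (um Q one_pos (hL e) _) _ _, inner_sum]
    exact Finset.sum_congr rfl fun i _ => by rw [map_smul, inner_smul_right]; rfl

open CL hiding key comm charge pch in
/-- **the component of dimension four of a stress tensor is a stress tensor** -/
theorem fss0 (R : M1 Q) (hF : Cd Q) (hT : Stress0 Q T) (hP : Dn.PGen Q T)
    {F : Ix → Ix → Finset (ℂ × ℕ)} {C : Ix → Ix → ℂ × ℕ → Fld D}
    (hC : ∀ m n, Scl Q (T m n) (F m n) (C m n)) (h4 : ∀ m n j, ((4 : ℂ), j) ∈ F m n ↔ j = 0) :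
    Q.IsStress (fun m n => C m n (4, 0)) ∧ Dn.PGen Q fun m n => C m n (4, 0) := by
  obtain ⟨M, S, c, c1, hc⟩ := ex_sel F
  have e : ∀ τ m n, TT (F m n) (C m n) τ = C m n (4, 0) := fun τ m n => by
    rw [TT, Finset.sum_eq_single_of_mem _ ((h4 m n 0).2 rfl) fun p hp ne => ?_]
    · simp [cf]
    · rw [cf, if_neg fun e => ne ?_, zero_smul]
      obtain ⟨d, j⟩ := p
      obtain rfl : d = 4 := e
      rw [(h4 m n j).1 hp]
  have fm := fun τ m n f v (hf : IsTest f) => tt_fm (hC m n) R (hc m n).1 τ hf v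
  have fm' := fun τ m n f v (hf : IsTest f) => tt_fm (hC m n) R (hc m n).2 τ hf v
  simp only [e] at fm fm'
  have cv : ∀ m n L a f v, IsLor L → IsTest f → C m n (4, 0) f (Q.U 1 L a v) =
      ∑ k, ∑ l, (L k m * L l n : ℂ) •
        Q.U 1 L a (C k l (4, 0) (fun x => f (sim 1 L a x)) v) :=
    fun m n L a f v hL hf => by
      have t1 := Ap.test_sim one_pos hL a hf
      let W : D →ₗ[ℂ] D := ⟨⟨Q.U 1 L a, U_add one_pos hL a⟩, U_smul one_pos hL a⟩
      show _ = ∑ k, ∑ l, _ • W _
      simp only [fm 0 _ _ _ _ t1, fm 0 _ _ f _ hf, map_sum, map_smul, Finset.smul_sum,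
        dl_cov R hT _ m n hL a hf]
      rw [Finset.sum_comm]
      refine Finset.sum_congr rfl fun k _ => ?_
      rw [Finset.sum_comm]
      exact Finset.sum_congr rfl fun l _ => Finset.sum_congr rfl fun t _ => smul_comm _ _ _
  have dim : ∀ m n s (hs : 0 < s) f v, IsTest f → C m n (4, 0) f
      (u Q s hs v) = u Q s hs (C m n (4, 0) (ds s f) v) := fun m n s hs f v hf => by
    obtain ⟨s, rfl⟩ : ∃ t, Real.exp t = s := ⟨_, Real.exp_log hs⟩
    rw [fm (0 + s) _ _ _ _ hf, fm 0 _ _ _ _ (ds_test hs hf), map_sum]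
    refine Finset.sum_congr rfl fun t _ => ?_
    have := dl_dl (B := T m n) (f := f) R s (0 + t) (u Q _ hs v)
    rw [Fss.dl, inv_u R] at this
    rw [map_smul, this]
    simp only [add_assoc, add_left_comm s]
  refine ⟨⟨fun m n => ((hC m n).1 _).2 (hT.bose m n), fun m n f v hf => ?_,
    fun m n f v w hf => ?_, fun m n s L a f v hs hL hf => ?_, fun n f v hf => ?_,
    fun G n B f v w hG hB hf hc' => ?_⟩, fun L a X L0 a0 hL hX dX G B f w hG hB hf => ?_⟩
  · simp only [fm 0 _ _ f v hf, Fss.dl, hT.symm m n _ _ (ds_test (Real.exp_pos _) hf)]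
  · rw [fm 0 _ _ f v hf, fm' 0 _ _ _ _ (Ap.test_bar hf), sum_inner, inner_sum]
    exact Finset.sum_congr rfl fun t _ => by
      rw [inner_smul_left, inner_smul_right, dl_herm R hT _ m n hf]
  · have t1 := Ap.test_sim one_pos hL a hf
    rw [← (U_dil R hs hL a v).2, cv m n L a f _ hL hf]
    refine Finset.sum_congr rfl fun k _ => Finset.sum_congr rfl fun l _ => ?_
    rw [dim k l s hs _ v t1, (U_dil R hs hL a _).2,
      show ds s (fun x => f (sim 1 L a x)) = fun x => f (sim s L a x) from funext fun x => by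
        rw [ds_apply]
        simp only [N86.c1_sim _ L a, simL_smul, one_smul]]
  · simp only [fun m => fm 0 m n _ v (Ap.test_pd m hf)]
    rw [Finset.sum_comm]
    simp only [← Finset.smul_sum, dl_cons R hT _ n hf, smul_zero, Finset.sum_const_zero]
  · exact lim c1 hB hf _ (fun t r => Fss.dl Q _ (Real.exp_pos (0 + t)) (T o n) (G r)) v w _
      ((isTest_cutoff hG).mono fun r hr z => fm 0 o n _ z hr) fun t =>
        Cw.charge R _ hT hF hB hG n hf hc' v w
  · obtain ⟨y, -, y2⟩ := hP L a X L0 a0 hL hX dX G B f w hG hB hf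
    refine ⟨y, lim c1 hB hf.1 _ (fun t r => Dn.cur (fun m n => Fss.dl Q _ (Real.exp_pos (0 + t))
      (T m n)) X (G r)) _ w _ ((isTest_cutoff hG).mono fun r hr z => ?_) fun t => ?_, y2⟩
    · simp only [Dn.cur, fun n => fm 0 o n _ z (test_sim0 hX hr n), Finset.smul_sum]
      exact Finset.sum_comm
    · obtain ⟨z, z1, z2⟩ := pgen_dl R (Real.exp_pos (0 + t))
        (fun m n => Q.bose_fld _ (hT.bose m n)) hF hP L a X L0 a0 hL hX dX G B f w hG hB hf
      exact mul_left_cancel₀ Complex.I_ne_zero (z2.unique y2) ▸ z1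

end

end Vale.Agent.N352.F
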