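import Vale.Agent.N352.F.Fs
import Vale.Agent.N352.U.Main

/-!
# N352, block F: sectors and extensions, without generators on the large theory
-/

set_option linter.all false

open Filter Topology

namespace Vale.Agent.N352.F

open Vale.Agent.P352 Vale.Agent.P352.GF Vale.Agent.P352.BW Vale.Agent.P352.H246
open Vale.Agent.P352.H496 Vale.Agent.P352.H755 Vale.Agent.P352.H15
open Vale.Agent.P352X Vale.Agent.P352L Vale.Agent.P352R
open Vale.Agent.N352.Pf Vale.Agent.N352.U Vale.Agent.N352.U.Mn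
open Vale.Agent.P352X.EG (Cg)
open UniformSpace (Completion)

noncomputable section

universe u v

variable {D : Type u} [NormedAddCommGroup D] [InnerProductSpace ℂ D]
  {D' : Type v} [NormedAddCommGroup D'] [InnerProductSpace ℂ D']

theorem impr_same {Q : Theory D} {T S t : Ix → Ix → Fld D} (h : Dn.Same Q T S)
    (k : P.IsImpr Q S t) : P.IsImpr Q T t :=
  { k with
    charge := fun F B f a b c d => by
      filter_upwards [k.charge F B f a b c d, h F B f a b ⟨c, d, Set.subset_univ _⟩] with r p q l n v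
      exact ⟨(p l n v).1.trans (q l n v).1, (p l n v).2.trans (q l n v).2⟩ }

variable (ρ : U.Rows D) (c : Cg D) {T : Ix → Ix → Fld D} (hM : MfAll c.Q) (hF : FSL c.Q)
  (hI : U.IVac c.Q)
include ρ hM hF hI

/-- **the local extension** -/
theorem exten (a1 : c.Q.IsStress T) (a2 : ND.PCh c.Q T c.A) :
    ∃ (E : Submodule ℂ (Completion D)) (P : Theory E) (G' : E → E) (e : Fld D → Fld E)
      (t : Ix → Ix → Fld E), Ext c.Q c.Γ c.N P G' e ∧ Desc P G' t ∧
      ∀ R, P352R.P.IsEnl P R → P352R.P.Gr R G' → Conf R G' (fun m n => e (T m n)) t := by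
  obtain ⟨E, P, G', e, L, h1, h0, h2, h3, h4, h5⟩ := ρ.conf c hI hM hF a1 a2
  refine ⟨E, P, G', e, improve (fun m n => e (T m n)) L, ext_of h1 h0, fun B hB => ?_,
    fun R n g => ?_⟩
  · obtain ⟨n, p, C, u, w⟩ := ((h5 P ⟨rfl, rfl, fun _ h => h, fun _ h => h⟩).2.2 h1.toGr).2 B hB
    exact ⟨n, p, C, fun i => Br.desc (u i), w⟩
  have n := Br.enl.1 n
  refine core (Br.gr.1 g) (H746.isStress_enl n h2) (scalar_enl n h3) (h5 R n).1.traceless
    (mx_of c (ρ.mixi c) hI (h5 R n).1 (.id ℂ _) E.subtypeₗᵢ (fun _ _ => rfl) ?_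
      (fun s M a z v hs hM => ?_) fun F _ => ⟨_, rfl⟩)
  · rw [n.vac]
    exact h1.vac.symm
  · rw [n.U]
    show inner ℂ _ (P.U s M a v : Completion D) = _
    rw [h1.U _ _ _ _ hs hM]
    exact ue_inner hs hM _ _ _

variable (hT : Stress0 c.Q T) (hA : ND.PCh c.Q T c.A) {R : Theory D'} {i : D →ₗᵢ[ℂ] D'}
  {G' : D' → D'} {T' : Ix → Ix → Fld D'} (h : P.Sect c.Q R i) (g : P.Gr R G')
  (hT' : P.Stress0 R T') (hP : Dn.PGen R T') (hx : ∀ m n, P.Xt i (T m n) (T' m n))
include hT hA h g hT' hP hx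

open EG Fss.G in
/-- the stress tensor of dimension four -/
theorem four : ∃ S S', c.Q.IsStress S ∧ ND.PCh c.Q S c.A ∧ R.IsStress S' ∧ Dn.PGen R S' ∧
    Dn.Same R T' S' ∧ ∀ m n, P.Xt i (S m n) (S' m n) := by
  have r := m1_gr c.hN.toGr
  have r' := m1_gr (Br.gr.1 g)
  choose F C hC c4 using ρ.nolog c hI hM hF hT hA
  obtain ⟨h1, h4⟩ := Cw.fss r (Cw.cj r c.hN.der) (Cw.cd_of r hF) hT hA hC c4
  choose C' c1 c2 using fun m n =>
    Cw.scl_ext (Br.sect.1 h) r r' (hT.bose m n) (hT'.bose m n) (hx m n) (hC m n)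
  obtain ⟨d1, d2⟩ :=
    fss0 r' (fun s hs => h.cov s _ 0 hs H496.isLor_one) (Br.stress0.1 hT') hP c1 c4
  exact ⟨_, _, h1, h4, d1, d2, same_of g hT'.bose d1.bose hP d2, fun m n => c2 m n _⟩

open EG Fss.G in
/-- **a theory that contains the relatively local scalars is conformally invariant** -/
theorem key (hX : Max c.Q c.Γ c.N R i) : ∃ t, Conf R G' T' t := by
  obtain ⟨S, S', h1, h4, d1, -, d2, c2⟩ := four ρ c hM hF hI hT hA h g hT' hP hx
  obtain ⟨E, P, G1, e, L, a1, a2, -, a4, a5, -⟩ := ρ.conf c hI hM hF h1 h4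
  have hl := pot_ext (ext_of a1 a2) h1 a4 a5
  obtain ⟨B, b1, b2⟩ := hX E P G1 e L (ext_of a1 a2) a4
  obtain ⟨b3, b4⟩ := scal_sect h d1 c2 hl.trace (fun s M a f hs hM hf => by
    have k : ((s ^ 2 : ℝ) : ℂ) ≠ 0 := Complex.ofReal_ne_zero.2 (by positivity)
    rw [show P352R.P.Ue c.Q s M a _ = _ from (Ug_apply _ hs hM _ _).symm, G.Sq.pot hl a hs hM hf,
      ← Complex.coe_smul, smul_smul, Complex.ofReal_inv, mul_inv_cancel₀ k, one_smul]) b1 b2
  suffices k : Conf R G' S' (improve S' B) from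
    ⟨_, k.form, impr_same d2 k.impr, k.act, k.cfs, k.desc⟩
  refine core (Br.gr.1 g) d1 b3 b4 (mx_of c (ρ.mixi c) hI
    (isImpr d1 ⟨rfl, rfl, fun _ h => h, fun _ h => h⟩ b3 b4) (jc i) Completion.toComplₗᵢ jc_inner
    (jc_om h) (fun s M a z v hs hM => ?_) fun F hF' => ?_)
  · exact (congrArg₂ _ (jc_ue h hs hM a z) (ue_coe hs hM a v).symm).trans (ue_inner hs hM _ _ _)
  let Z := LinearMap.range (jc i).toLinearMap
  have z1 : ∀ f, IsTest f → ((B f R.vac : D') : Completion D') ∈ Z := fun f hf =>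
    ⟨_, (b2 f hf).symm⟩
  have z2 : ∀ m n f, IsTest f → ((S' m n f R.vac : D') : Completion D') ∈ Z :=
    fun m n f hf => ⟨_, (jc_coe _).trans <| by rw [c2 m n f _ hf, h.vac]⟩
  show ((smt (improve S' B) F R.vac : D') : Completion D') ∈ Z
  rw [← Completion.coe_toComplL (𝕜 := ℂ)]
  simp only [smt, improve, map_sum, map_add, map_sub, map_smul, Completion.coe_toComplL]
  refine Z.sum_mem fun m _ => Z.sum_mem fun n _ => ?_
  have hf := (hF' m n).isTest
  exact Z.sub_mem (Z.add_mem (z2 m n _ hf) (Z.smul_mem _ (z1 _ (Ap.test_pd _ (Ap.test_pd _ hf)))))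
    (Z.smul_mem _ (Z.sum_mem fun k _ => Z.smul_mem _ (z1 _ (Ap.test_pd _ (Ap.test_pd _ hf)))))

end

end Vale.Agent.N352.F
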