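import Vale.Agent.N352.F.Sp
import Vale.Agent.N352.U.Vn

/-!
# N352, block F: charges on the vacuum and charges on the domain (helper72)
-/

set_option linter.all false

open Filter Topology

namespace Vale.Agent.N352.F

open P352 P352.GF P352R P352R.P P352X
open P352.H746 (Crv vf)
open UniformSpace (Completion)
open Complex (I)

variable {D : Type*} [NormedAddCommGroup D] [InnerProductSpace ℂ D] {Q : Theory D} {G : D → D}
  {A : (V → V) → D → D} {T : Ix → Ix → Fld D} {X : V → V} {B j : Fld D} {f : Fn} {F : ℝ → Fn}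

namespace Pg

theorem sm_of {ι : Type} [Fintype ι] {Z : D → D} (c : ι → ℂ) {C : ι → Fld D} {g : ι → Fn}
    (h : ∀ i, Q.fld (C i) ∧ P.In Set.univ (g i)) (e : ∀ v, Z v = ∑ i, c i • C i (g i) v) : Sm Q Z :=
  let E := (Fintype.equivFin ι).symm
  ⟨_, fun i => c (E i), fun i => C (E i), fun i => g (E i), fun i => h _, fun v =>
    (e v).trans (E.sum_comp fun i => c i • C i (g i) v).symm⟩

theorem in_vf {r : ℝ} (hX : P.IsSim r X) (hf : P.In Set.univ f) : P.In Set.univ (vf X f) := by
  have : tsupport (vf X f) ⊆ tsupport f := closure_minimal (fun x hx => by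
    by_contra k
    exact hx (Finset.sum_eq_zero fun n _ => by
      rw [image_eq_zero_of_notMem_tsupport fun h => k (Ap.tsupport_pd n f h), mul_zero]))
    (isClosed_tsupport _)
  exact ⟨H746.isTest_vf hX hf.1, hf.2.1.isCompact.of_isClosed_subset (isClosed_tsupport _) this,
    Set.subset_univ _⟩

theorem inn {u : ℝ → D} {v : D} (d : HasDerivAt u (I • v) 0) (z : D) :
    HasDerivAt (fun e => inner ℂ z (u e)) (I * inner ℂ z v) 0 := by
  rw [← inner_smul_right]
  exact ((innerSL ℂ z).restrictScalars ℝ).hasFDerivAt.comp_hasDerivAt (0 : ℝ) d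

section crv

variable {s : ℝ → ℝ} {L : ℝ → Ix → V} {a : ℝ → V} {w : Ix → V} {r : ℝ} {y : V}
  (K : Crv s L a w r y) {Y : D → D}
  (d : ∀ v, HasDerivAt (fun e => Q.U (s e) (L e) (a e) v) (I • Y v) 0)
include K d

theorem eq {v u : D} (h : ∀ z, HasDerivAt (fun e => inner ℂ z (Q.U (s e) (L e) (a e) v))
    (I * inner ℂ z u) 0) : Y v = u := ext_inner_left ℂ fun z =>
  mul_left_cancel₀ Complex.I_ne_zero ((inn (d v) z).unique (h z))

theorem der (z v : D) : HasDerivAt (fun e => inner ℂ z (Q.U (s e) (L e) (a e) v))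
    (I * inner ℂ z (Y v)) 0 := inn (d v) z

theorem vac : Y Q.vac = 0 := eq K d fun z => by
  simpa only [fun e => Q.U_vac _ _ (a e) (K.sp e) (K.lor e), inner_zero_right, mul_zero] using
    hasDerivAt_const (0 : ℝ) _

/-- the generator as a linear map -/
def lin : D →ₗ[ℂ] D where
  toFun := Y
  map_add' v w := eq K d fun z => by
    simpa only [fun e => U_add (Q := Q) (K.sp e) (K.lor e), inner_add_right, mul_add] using
      (der K d z v).fun_add (der K d z w)
  map_smul' c v := eq K d fun z => by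
    simpa only [fun e => U_smul (Q := Q) (K.sp e) (K.lor e), inner_smul_right,
      RingHom.id_apply, mul_left_comm I] using (der K d z v).const_mul c

theorem lift (g : P.Gr Q G) (hj : Dens Q j) (h : Dn.Gen Q (fun e => Q.U (s e) (L e) (a e)) j)
    (hZ : ∀ B f, Q.fld B → P.In Set.univ f → Sm Q fun v => Y (B f v) - B f (Y v))
    (hF : IsCutoff F) (hB : Q.fld B) (hf : P.In Set.univ f) :
    ∀ᶠ r in atTop, ∀ v, P.cm j (F r) B f v = Y (B f v) - B f (Y v) := by
  have yg : ∀ v, Y (G v) = gm g (Y v) := fun v => eq K d fun z => by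
    simpa only [fun e => g.GU _ _ (a e) v (K.sp e) (K.lor e), ← g.herm,
      show ∀ u, gm g u = G u from fun _ => rfl] using der K d (G z) v
  have key : ∀ (e : Bool) C, (if e then P.Fer Q G C else Q.bose C) →
      ∀ᶠ r in atTop, ∀ v, P.cm j (F r) C f v = Y (C f v) - C f (Y v) := fun e C k => by
    have c : Q.fld C := by
      cases e
      exacts [Q.bose_fld _ k, k.1]
    have p : ∀ v, C f (G v) = (if e then -1 else 1 : ℂ) • gm g (C f v) := fun v => by
      cases e
      exacts [(g.bose C f v k hf.1).trans (one_smul _ _).symm,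
        (k.2 f v hf.1).trans (neg_one_smul _ _).symm]
    refine op_of_vac g hj e k hf (hZ C f c hf) (fun v => ?_) hF fun w => ?_
    · show lin K d _ - _ = _ • gm g _
      rw [p, map_smul, yg, show gm g (Y v) = G (Y v) from rfl, p, map_sub, smul_sub, ← yg]
      rfl
    obtain ⟨c', p, q⟩ := h F C f w hF c hf
    rw [vac K d, show C f 0 = 0 from (fm c hf.1).map_zero, sub_zero,
      ← mul_left_cancel₀ Complex.I_ne_zero (q.unique (der K d w _))]
    exact p
  obtain ⟨C, C', a1, a2, e⟩ := g.split B hB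
  obtain ⟨n, E, p, b1, b2, b3⟩ := hj
  filter_upwards [key false C a1, key true C' a2, isTest_cutoff hF] with r k k' t v
  have ad : ∀ u u', j (F r) (u + u') = j (F r) u + j (F r) u' := fun u u' => by
    simp only [b3 _ _ t, ← Finset.sum_add_distrib]
    exact Finset.sum_congr rfl fun i _ => (fm (Q.bose_fld _ (b1 i)) (b2 i _ t)).map_add _ _
  simp only [P.cm, e _ _ hf.1, ad] at k k' ⊢
  rw [show Y (_ + _) = Y _ + Y _ from (lin K d).map_add _ _, add_sub_add_comm, k, k',
    add_sub_add_comm]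

end crv

end Pg

open Pg

/-- the charges of the stress tensor are the generators -/
theorem pch_of (g : GI.Ge Q G A) (m : P.MfA Q) (hT : ∀ m n, Q.bose (T m n)) (h : Dn.PGen Q T) :
    P.PCh Q T A := by
  intro F X B f v z hF hX hB hf hc
  obtain ⟨y, w, hw, e⟩ := id hX
  obtain ⟨L, L0, hL, dL⟩ := H746.exists_lor hw
  have K : Crv (fun _ => 1) L (fun e => e • y) w 0 y :=
    ⟨rfl, L0, zero_smul _ _, fun _ => one_pos, hL, hasDerivAt_const _ _, dL, fun n => by
      simpa using hasDerivAt_mul_const (x := (0 : ℝ)) (y n)⟩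
  have d := Tn.Der.crv g.der K e
  refine tendsto_const_nhds.congr' ((lift K d g.toGr (dens_cur hT hX) (h L _ X L0 K.a0 hL hX
    (K.dX e)) (fun C g' c k => ?_) hF hB ⟨hf, hc, Set.subset_univ _⟩).mono fun r k =>
      congrArg _ (k v).symm)
  obtain ⟨n, E, a, b⟩ := Br.mfa.1 m C c
  choose k' Φ μ p q using a
  refine sm_of (ι := Σ i, Option (Fin (k' i).n))
    (fun i => I * i.2.elim 1 fun b => CA.G.sg (k' i.1) w b (μ i.1))
    (C := fun i => Φ i.1 (i.2.getD (μ i.1))) (g := fun i => i.2.elim (vf X g') fun _ => g')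
    (fun ⟨i, o⟩ => ⟨(p i).1 _, by cases o; exacts [in_vf hX k, k]⟩) fun v => ?_
  rw [b _ _ k.1, b _ _ k.1, show A X _ = lin K d _ from rfl, map_sum, ← Finset.sum_sub_distrib,
    Fintype.sum_sigma]
  refine Finset.sum_congr rfl fun i _ => ?_
  rw [q, Fintype.sum_option]
  refine (Tn.gen_mf g.der (Fss.G.m1_gr (Br.gr.1 g.toGr)) hw e (p i) _ k.1 v).trans ?_
  simp only [Option.elim, Option.getD, mul_one, mul_smul, smul_add, Finset.smul_sum, add_comm]

theorem dil_crv : Crv Real.exp (fun _ => one) (fun _ => 0) (fun _ _ => 0) 1 0 :=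
  ⟨Real.exp_zero, rfl, rfl, Real.exp_pos, fun _ => lor1, by simpa using Real.hasDerivAt_exp 0,
    fun _ _ => hasDerivAt_const _ _, fun _ => hasDerivAt_const _ _⟩

theorem dil_sim : P.IsSim 1 id := ⟨0, fun _ _ => 0, by simp, by simp⟩

/-- the charge of the dilation current is the generator -/
theorem vc_of (g : GI.Ge Q G A) (m : P.FSL Q) (hT : ∀ m n, Q.bose (T m n)) {J : Ix → Fld D}
    (h : Dn.Vir Q T J) : U.Vr.Vc Q T A (J o) := by
  intro F B f v z hF hB hf hc
  have e : ∀ (z : V) n, id z n = (0 : V) n + 1 * z n + ∑ m, z m * (0 : ℝ) := by simp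
  have d := Tn.Der.crv g.der dil_crv e
  refine tendsto_const_nhds.congr' ((lift dil_crv d g.toGr ((dens_cur hT dil_sim).sub
    (dens_one (h.bose o))) h.gen (fun C g' c k => ?_) hF hB ⟨hf, hc, Set.subset_univ _⟩).mono
      fun r k => congrArg _ (k v).symm)
  obtain ⟨S, E, a, b⟩ := m C c
  have dz : ∀ p : S, ∃ z, HasDerivAt (fun e : ℝ => ((Real.exp e : ℝ) : ℂ) ^ (4 - p.1.1) *
      (Real.log (Real.exp e) : ℂ) ^ p.1.2) z 0 := fun p => by
    simp only [Real.log_exp]
    simp only [Complex.ofReal_exp]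
    exact ⟨_, (((Complex.hasDerivAt_exp _).cpow_const (by simp)).fun_mul
      (hasDerivAt_pow _ _)).comp_ofReal⟩
  choose z hz using dz
  refine sm_of (ι := Option S) (fun i => I * i.elim 1 z) (C := fun i => i.elim C fun p => E p)
    (g := fun i => i.elim (vf id g') fun _ => g') (fun o => by
      cases o
      exacts [⟨c, in_vf dil_sim k⟩, ⟨(a _).1, k⟩]) fun v => ?_
  rw [Fintype.sum_option]
  refine (Tn.gen_cov dil_crv d e (B := fun p : S => E p) (fun p => (a p).1) c hz k.1 v
    (fun g'' t => ?_) fun e => (b _ _ v (Real.exp_pos e) k.1).trans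
      (Finset.sum_coe_sort _ _).symm).trans ?_
  · have := b 1 g'' v one_pos t
    have u : ∀ v, Q.U 1 one 0 v = v := fun v => by simpa using H746.U_at0 (Q := Q) dil_crv v
    simp only [u, BW.H26.sim_one0] at this
    rw [this, Real.exp_zero, ← Finset.sum_coe_sort S]
  simp only [Option.elim, mul_one, mul_smul, smul_add, Finset.smul_sum, add_comm]

/-- a virial current forbids the spontaneous breaking of the similitudes -/
theorem ivac_of {Γ N} (n : P352R.G.LNg Q G A Γ N) (m : P.MfA Q) (l : P.FSL Q)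
    (hT : ∀ m n, Q.bose (T m n)) (hP : P.PCh Q T A) {J : Ix → Fld D} (h : Dn.Vir Q T J) :
    Dn.IVac Q :=
  U.Vr.ivac (c := U.Vr.cf ⟨Q, G, A, Γ, N, Br.lng.1 n⟩) (fun s y hs =>
    Pf.cova (Br.gr.1 n.toGr) (Br.mfa.1 m) l s _ y hs lor1) (U.Vr.cn_net _) hT hP (h.bose o)
      (vc_of ⟨n.toGr, n.vac, n.add, n.der⟩ l hT h)

theorem gen_of {u : ℝ → D → D} {Y : D → D} (d : ∀ v, HasDerivAt (fun e => u e v) (I • Y v) 0)
    (h0 : Y Q.vac = 0) (h : ∀ F B f w, IsCutoff F → Q.fld B → P.In Set.univ f →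
      Tendsto (fun R => inner ℂ w (P.cm j (F R) B f Q.vac)) atTop
        (𝓝 (inner ℂ w (Y (B f Q.vac) - B f (Y Q.vac))))) : Dn.Gen Q u j := by
  intro F B f w hF hB hf
  refine ⟨_, h F B f w hF hB hf, ?_⟩
  rw [h0, show B f 0 = 0 from (fm hB hf.1).map_zero, sub_zero]
  exact inn (d _) w

theorem pgen_of (g : P.Gnr Q A) (h : P.PCh Q T A) : Dn.PGen Q T := by
  intro L a X L0 a0 hL hX d
  have k := fun v => g (fun _ => 1) L a X v rfl L0 a0 (fun e => ⟨one_pos, hL e⟩) d
  refine gen_of k (smul_right_injective D Complex.I_ne_zero ((k _).unique ?_))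
    fun F B f w hF hB hf => h F X B f _ w hF hX hB hf.1 hf.2.1
  simpa only [fun e => Q.U_vac _ _ (a e) one_pos (hL e), smul_zero] using
    hasDerivAt_const (0 : ℝ) _

end Vale.Agent.N352.F
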