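import Vale.Agent.N352.Rn.Du
import Vale.Agent.N352.F.Br
import Vale.Agent.P352R.Br3

/-!
# N352, block F: nets on bounded regions
-/

set_option linter.all false

open Filter Topology

namespace Vale.Agent.N352.F

open Vale.Agent.P352 Vale.Agent.P352.GF Vale.Agent.P352.BW
open Vale.Agent.P352X Vale.Agent.P352X.EB E P352R P352R.Tw Rn
open UniformSpace (Completion)

variable {D : Type*} [NormedAddCommGroup D] [InnerProductSpace ℂ D] {Q : Theory D} {G : D → D}
  {A : (V → V) → D → D} {Γ : Completion D →L[ℂ] Completion D}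
  {N : Set V → VonNeumannAlgebra (Completion D)}

/-- a gap between compact space-like separated sets -/
theorem gap {K K' : Set V} (h : IsCompact K) (h' : IsCompact K') (s : Dn.Spc K K') :
    ∃ O, Dn.Reg O ∧ K' ⊆ O ∧ Dn.Spc K O := by
  obtain ⟨u, v, -, hv, a, b, e⟩ := generalized_tube_lemma h h'
    (n := {p : V × V | GF.mdot (p.1 - p.2) (p.1 - p.2) < 0})
    (isOpen_lt (by fun_prop) continuous_const) fun p q => s _ q.1 _ q.2
  obtain ⟨R, hR⟩ := h'.isBounded.subset_ball 0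
  exact ⟨v ∩ Metric.ball 0 R, ⟨hv.inter Metric.isOpen_ball, Metric.isBounded_ball.subset
    Set.inter_subset_right⟩, Set.subset_inter b hR, fun x p y q => e (Set.mk_mem_prod (a p) q.1)⟩

/-- the context -/
def cr (g : GI.Ge Q G A) (h : Dn.Net Q G Γ N) : Cf D :=
  ⟨Q, G, A, Γ, Br.gr.1 g.toGr, g.vac, g.add, g.der, h.ext⟩

theorem rn (g : GI.Ge Q G A) (y : GI.Cy Q) (h : Dn.Net Q G Γ N) (r : Dn.Rel Q Γ N) :
    RN (cr g h) N := by
  have k : ∀ X, kt (cr g h) * X * star (kt (cr g h)) = (1 / 2 : ℂ) • (X + Γ * X * Γ) +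
      (-1 * Complex.I / 2 : ℂ) • ((X - Γ * X * Γ) * Γ) := fun X => by
    have := kz_conj (SGx.g2 (cr g h)) (e := -1) (by norm_num) X
    rwa [neg_neg, ← kz_star' (SGx.gs _)] at this
  refine ⟨h.mono, fun u O o X hX => ?_, fun O O' o o' a b X hX => ?_,
    fun O B B' f o hB ad hf X hX v w => ?_, r.cyc⟩
  · obtain ⟨Y, hY, e⟩ := h.cov u.s u.L u.a O o X hX u.hs u.hL
    have e1 : Y * SGx.U0 (cr g h) u.toSg = SGx.U0 (cr g h) u.toSg * X := ContinuousLinearMap.ext
      fun z => (congrArg _ (Ug_apply _ u.hs u.hL _ _)).trans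
        ((e z).trans (Ug_apply _ u.hs u.hL _ _).symm)
    have e2 : SGx.U0 (cr g h) u.toSg * X * star (SGx.U0 (cr g h) u.toSg) = Y := by
      rw [← e1, mul_assoc, (SGx.uni0 _ _).1.2, mul_one]
    rcases SGx.cas u with p | p <;> rw [p]
    · rwa [e2]
    · rw [star_mul, SGx.gs, ← mul_assoc, mul_assoc (cr g h).Γ, mul_assoc (cr g h).Γ, e2]
      exact h.gam _ (Rg.img o u) _ hY
  · have l := h.loc O O' o o' (fun x p y q => Ap.wdg_opp Grp.nb Grp.na (a p) (b q)) X hX
    rw [k]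
    exact add_mem ((N O').commutant.toStarSubalgebra.smul_mem l.1 _)
      ((N O').commutant.toStarSubalgebra.smul_mem l.2 _)
  · obtain ⟨O', o', a, b⟩ := gap o.2.isCompact_closure hf.2.1 fun x p y q => hf.2.2 q x p
    have l := r.rel O O' o o' (fun x p => b x (subset_closure p)) X hX
    have c : ∀ v, Dn.Cyc Q v := fun v S p q => (y S p q).ge trivial
    rw [k]
    simp only [ContinuousLinearMap.add_apply (_ • _), ContinuousLinearMap.smul_apply,
      inner_add_right, inner_smul_right, l.1 B B' f v w hB ad ⟨hf.1, hf.2.1, a⟩ (c v) (c w),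
      l.2 B B' f v w hB ad ⟨hf.1, hf.2.1, a⟩ (c v) (c w)]

/-- **relatively local nets give local nets** -/
theorem net_of (g : GI.Ge Q G A) (m : P.MfA Q) (y : GI.Cy Q) (h : Dn.Net Q G Γ N)
    (r : Dn.Rel Q Γ N) : ∃ N', P352R.G.LNg Q G A Γ N' :=
  ⟨_, Br.lng.2 (lng (rn g y h r) (Br.mfa.1 m))⟩

/-- affiliated fields are relatively local -/
theorem rel_of_aff (_ : P.Gr Q G) (n : Dn.Net Q G Γ N) (a : Dn.Aff Q N) : Dn.Rel Q Γ N := by
  refine ⟨?_, fun O O' o o' s X hX => ⟨a O' o' _ (n.loc O O' o o' s X hX).1,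
    a O' o' _ (n.loc O O' o o' s X hX).2⟩⟩
  have u : ∀ {O O'}, Dn.Reg O → Dn.Reg O' → Dn.Reg (O ∪ O') ∧ (∀ X ∈ N O, X ∈ N (O ∪ O')) ∧
      ∀ X ∈ N O', X ∈ N (O ∪ O') := fun o o' =>
    have k : Dn.Reg _ := ⟨o.1.union o'.1, o.2.union o'.2⟩
    ⟨k, n.mono _ _ o k Set.subset_union_left, n.mono _ _ o' k Set.subset_union_right⟩
  have e : Dn.Reg ∅ := ⟨isOpen_empty, Bornology.isBounded_empty⟩
  let K : Submodule ℂ (Completion D) :=
    { carrier := {z | ∃ O, Dn.Reg O ∧ ∃ X ∈ N O, z = X (Dn.om Q)}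
      add_mem' := by
        rintro _ _ ⟨O, o, X, p, rfl⟩ ⟨O', o', X', p', rfl⟩
        exact ⟨_, (u o o').1, X + X', add_mem ((u o o').2.1 X p) ((u o o').2.2 X' p'), rfl⟩
      zero_mem' := ⟨∅, e, 0, zero_mem _, rfl⟩
      smul_mem' := by
        rintro z _ ⟨O, o, X, p, rfl⟩
        exact ⟨O, o, z • X, (N O).toStarSubalgebra.smul_mem p z, rfl⟩ }
  let R := K.topologicalClosure.starProjection
  have hR : ∀ O, Dn.Reg O → R ∈ (N O).commutant := fun O o =>
    (VonNeumannAlgebra.IsStarProjection.mem_iff (isStarProjection_starProjection) _).2 fun Y hY => by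
      rw [VonNeumannAlgebra.commutant_commutant] at hY
      rw [Submodule.range_starProjection]
      refine fun z hz => map_mem_closure Y.continuous hz ?_
      rintro _ ⟨O', o', X, p, rfl⟩
      exact ⟨_, (u o o').1, Y * X, mul_mem ((u o o').2.1 Y hY) ((u o o').2.2 X p), rfl⟩
  have k : ∀ X X', H246.Al Q W0 X X' → Cyc Q (X Q.vac) ∧ R (X Q.vac : D) = (X Q.vac : D) :=
    fun X X' h => by
    induction h with
    | one => exact ⟨cyc_vac, Submodule.starProjection_eq_self_iff.2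
        (K.le_topologicalClosure ⟨∅, e, 1, one_mem _, rfl⟩)⟩
    | add _ _ _ _ _ _ p q => exact ⟨(N352.cy Q).add_mem p.1 q.1, by
        rw [Completion.coe_add, map_add, p.2, q.2]⟩
    | smul z _ _ _ p => exact ⟨(N352.cy Q).smul_mem z p.1, by rw [Completion.coe_smul, map_smul, p.2]⟩
    | fld B B' f X _ hB _ ad hf _ p =>
      obtain ⟨r, hr⟩ := hf.2.1.isCompact.isBounded.subset_ball 0
      refine ⟨p.1.fld hB hf.1, cyc_ext (Q := Q) fun w hw => ?_⟩
      rw [← inner_conj_symm, ← a _ ⟨Metric.isOpen_ball, Metric.isBounded_ball⟩ R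
        (hR _ ⟨Metric.isOpen_ball, Metric.isBounded_ball⟩) B B' f _ w hB ad ⟨hf.1, hf.2.1, hr⟩ p.1 hw,
        p.2, inner_conj_symm, Completion.inner_coe, Completion.inner_coe, ad _ _ _ hf.1]
  refine (((Completion.denseRange_coe.dense_image (Completion.continuous_coe D)
    (dn Q Grp.na Grp.nb Grp.nab)).mono ?_ : Dense (closure (K : Set (Completion D))))).of_closure
  rintro _ ⟨v, hv, rfl⟩
  obtain ⟨X, X', h, rfl⟩ := H246.exists_Al hv
  exact Submodule.starProjection_eq_self_iff.1 (k X X' h).2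

end Vale.Agent.N352.F
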