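import Vale.Agent.N352.F.Nt
import Vale.Agent.N352.Main

/-!
# N352, block F: restriction to the generated domain
-/

set_option linter.all false

open Filter Topology

namespace Vale.Agent.N352.F

open P352.GF P352R P352R.P
open UniformSpace (Completion)

noncomputable section

universe u

variable {D : Type u} {D' : Type*} [NormedAddCommGroup D] [InnerProductSpace ℂ D]
  [NormedAddCommGroup D'] [InnerProductSpace ℂ D'] {Q : Theory D} {G : D → D}
  {T : Ix → Ix → Fld D} {B : Fld D}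

open Classical in
/-- restriction of a map -/
def rg (Q : Theory D) (X : D → D) (v : N352.cy Q) : N352.cy Q :=
  if h : Cyc Q (X v) then ⟨X v, h⟩ else 0

/-- restriction of a field -/
def rf (Q : Theory D) (B : Fld D) : Fld (N352.cy Q) := fun f => rg Q (B f)

/-- the inclusion -/
abbrev io (Q : Theory D) : N352.cy Q →ₗᵢ[ℂ] D := (N352.cy Q).subtypeₗᵢ

theorem rg_of {X : D → D} {v : N352.cy Q} (h : Cyc Q (X v)) : (rg Q X v : D) = X v := by
  rw [rg, dif_pos h]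

theorem rf_xt (hB : Q.fld B) : Xt (io Q) (rf Q B) B := fun _ v hf => rg_of (Cyc.fld v.2 hB hf)

/-- the similitudes preserve the generated domain -/
def Ok (Q : Theory D) : Prop :=
  ∀ s L a v, 0 < s → IsLor L → Cyc Q v → Cyc Q (Q.U s L a v)

theorem ok_cov (h : ∀ s L a, 0 < s → IsLor L → Cov Q s L a) : Ok Q := fun s L a v hs hL hv =>
  hv ((N352.cy Q).comap (um Q hs hL a)) (by
    show Cyc Q (Q.U s L a _)
    rw [Q.U_vac _ _ _ hs hL]
    exact cyc_vac) fun B f w hB hf hw => by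
    obtain ⟨n, c, A, p, q⟩ := (h s L a hs hL).2 B hB
    let g : P352X.EB.Sg := ⟨s, L, a, hs, hL⟩
    have t : IsTest fun x => f (g.inv.act x) := t_sim g.inv.hs g.inv.hL _ hf
    have e := q _ w t
    rw [show (fun x => f (g.inv.act (sim s L a x))) = f from funext fun x =>
      congrArg f (g.inv_act x)] at e
    show Q.U s L a _ ∈ N352.cy Q
    rw [e]
    exact sum_mem fun i _ => (N352.cy Q).smul_mem _ (Cyc.fld hw (p i) t)

theorem ok_of (g : Gr Q G) (m : MfA Q) (l : FSL Q) : Ok Q :=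
  ok_cov (Pf.cova (Br.gr.1 g) (Br.mfa.1 m) (Br.fsl.1 l))

theorem xadj {B' : Fld D} {C C' : Fld (N352.cy Q)} (ad : IsAdj B B') (x : Xt (io Q) C B)
    (x' : Xt (io Q) C' B') : IsAdj C C' := fun f v w hf =>
  (congrArg (inner ℂ · _) (x f v hf)).trans ((ad f _ _ hf).trans
    (congrArg (inner ℂ _) (x' _ w (t_bar hf)).symm))

/-- **the restriction** -/
def rs (Q : Theory D) (h : Ok Q) : Theory (N352.cy Q) where
  vac := ⟨Q.vac, cyc_vac⟩
  fld C := ∃ B, Q.fld B ∧ Xt (io Q) C B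
  bose C := ∃ B, Q.bose B ∧ Xt (io Q) C B
  U s L a := rg Q (Q.U s L a)
  norm_vac := Q.norm_vac
  cyclic S a b := by
    have : S = ⊤ := top_unique fun w _ => by
      obtain ⟨v, c, e⟩ : (w : D) ∈ S.map (N352.cy Q).subtype := w.2 _ ⟨_, a, rfl⟩ (by
        rintro B f _ hB hf ⟨v, c, rfl⟩
        exact ⟨_, b (rf Q B) f v ⟨B, hB, rf_xt hB⟩ hf c, rf_xt hB f v hf⟩)
      exact Subtype.ext e ▸ c
    rw [this]
    exact dense_univ
  lin := by
    rintro C f g c v ⟨B, b, x⟩ hf hg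
    have t : IsTest fun y => f y + c * g y := by
      obtain ⟨F, rfl⟩ := hf
      obtain ⟨F', rfl⟩ := hg
      exact ⟨F + c • F', rfl⟩
    exact (io Q).injective (by
      rw [map_add, map_smul, x _ _ t, x _ _ hf, x _ _ hg, Q.lin B f g c _ b hf hg])
  cont := by
    rintro C v ⟨B, b, x⟩
    exact continuous_induced_rng.2 ((Q.cont B v b).congr fun g => (x _ v ⟨g, rfl⟩).symm)
  adj := by
    rintro C ⟨B, b, x⟩
    obtain ⟨B', b', ad⟩ := Q.adj B b
    exact ⟨_, ⟨B', b', rf_xt b'⟩, xadj ad x (rf_xt b')⟩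
  bose_fld := fun _ ⟨B, b, x⟩ => ⟨B, Q.bose_fld B b, x⟩
  loc := by
    rintro C C' f g v ⟨B, b, x⟩ ⟨B', b', x'⟩ hf hg s
    exact (io Q).injective (by
      rw [x _ _ hf, x' _ _ hg, x' _ _ hg, x _ _ hf, Q.loc B B' f g _ b b' hf hg s])
  U_inner s L a v w hs hL := by
    rw [Submodule.coe_inner, rg_of (h s L a _ hs hL v.2), rg_of (h s L a _ hs hL w.2),
      Q.U_inner _ _ _ _ _ hs hL, Submodule.coe_inner]
  U_vac s L a hs hL := Subtype.ext ((rg_of (h s L a _ hs hL cyc_vac)).trans (Q.U_vac _ _ _ hs hL))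
  transl := by
    rintro C a f v ⟨B, b, x⟩ hf
    refine Subtype.ext ((x f _ hf).trans ?_)
    rw [rg_of (h _ _ _ _ one_pos lor1 (Subtype.property _)),
      show ((C _ v : N352.cy Q) : D) = _ from x _ v (t_sim one_pos lor1 a hf), ← Q.transl B a f _ b hf]
    exact congrArg _ (rg_of (h _ _ _ _ one_pos lor1 v.2))
  spectrum v := (Q.spectrum v).imp fun ν k => ⟨k.1, k.2.1, fun a => by
    rw [Submodule.coe_inner, rg_of (h _ _ _ _ one_pos lor1 v.2), k.2.2]⟩

variable {h : Ok Q}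

theorem rs_U {s L} (hs : 0 < s) (hL : IsLor L) (a : V) (v : N352.cy Q) :
    io Q ((rs Q h).U s L a v) = Q.U s L a (io Q v) := rg_of (h s L a _ hs hL v.2)

theorem rs_rst : Rst Q (rs Q h) :=
  ⟨rfl, fun _ _ a v hs hL => rs_U hs hL a v, fun _ => .rfl, fun _ => .rfl⟩

theorem rs_fld (b : Q.fld B) : (rs Q h).fld (rf Q B) := ⟨B, b, rf_xt b⟩

theorem rs_bose (b : Q.bose B) : (rs Q h).bose (rf Q B) := ⟨B, b, rf_xt (Q.bose_fld B b)⟩

theorem rs_cy : GI.Cy (rs Q h) := cy.1 fun w => rs_rst.cyc w.2 fun _ => rf_xt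

theorem rg_coe (g : Gr Q G) (e : G Q.vac = Q.vac) (v : N352.cy Q) :
    io Q (rg Q G v) = G (io Q v) := by
  let M : D →ₗ[ℂ] D := ⟨⟨G, fun v w => ext_inner_right ℂ fun z => by
    simp only [g.herm, inner_add_left]⟩, fun c v => ext_inner_right ℂ fun z => by
    simp only [g.herm, inner_smul_left, RingHom.id_apply]⟩
  refine rg_of (v.2 (N352.cy Q ⊓ (N352.cy Q).comap M) ⟨cyc_vac, (congrArg (Cyc Q) e).mpr cyc_vac⟩
    fun B f w hB hf hw => ⟨Cyc.fld hw.1 hB hf, ?_⟩).2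
  obtain ⟨C, C', a, b, c⟩ := g.split B hB
  show M (B f w) ∈ N352.cy Q
  rw [c f w hf, map_add]
  refine add_mem (?_ : Cyc Q (G _)) (?_ : G _ ∈ N352.cy Q)
  · rw [← g.bose C f w a hf]
    exact Cyc.fld hw.2 (Q.bose_fld C a) hf
  · rw [← neg_mem_iff, ← b.2 f w hf]
    exact Cyc.fld hw.2 b.1 hf

theorem rs_even (g : Gr Q G) (e : G Q.vac = Q.vac) : rg Q G (rs Q h).vac = (rs Q h).vac :=
  Subtype.ext ((rg_coe g e _).trans e)

theorem rs_gr (g : Gr Q G) (e : G Q.vac = Q.vac) : Gr (rs Q h) (rg Q G) := by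
  have r := rg_coe g e
  have i := (io Q).injective
  refine ⟨fun v => i (by rw [r, r, g.inv]), fun v w => by
      rw [← (io Q).inner_map_map, ← (io Q).inner_map_map v, r, r, g.herm], ?_, ?_, ?_,
    fun s L a v hs hL => i (by rw [r, rs_U hs hL, rs_U hs hL, r, g.GU _ _ _ _ hs hL]),
    fun s L a s' L' a' hs hs' hL hL' => ?_⟩
  · rintro C f v ⟨B, b, x⟩ hf
    exact i (by rw [r, x _ _ hf, x _ _ hf, r, g.bose B f _ b hf])
  · rintro C ⟨B, b, x⟩
    obtain ⟨E, E', a, a', c⟩ := g.split B b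
    exact ⟨_, _, rs_bose a, ⟨rs_fld a'.1, fun f v hf => i (by
      rw [map_neg, r, rf_xt a'.1 _ _ hf, rf_xt a'.1 _ _ hf, r, a'.2 f _ hf])⟩, fun f v hf => i (by
      rw [map_add, x _ _ hf, rf_xt a'.1 _ _ hf, rf_xt (Q.bose_fld E a) _ _ hf, c f _ hf])⟩
  · have k : ∀ C, Fer (rs Q h) (rg Q G) C → ∃ B, Fer Q G B ∧ Xt (io Q) C B := by
      rintro C ⟨⟨B, b, x⟩, p⟩
      obtain ⟨E, E', a, a', c⟩ := g.split B b
      refine ⟨E', a', fun f v hf => ?_⟩
      have h1 := congrArg (io Q) (p f v hf)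
      rw [map_neg, r, x _ _ hf, x _ _ hf, r, c f _ hf, c f _ hf, g.bose E f _ a hf, a'.2 f _ hf] at h1
      have ga : ∀ v w, G (v + w) = G v + G w := fun v w => ext_inner_right ℂ fun z => by
        simp only [g.herm, inner_add_left]
      have h2 : G (E f (io Q v)) = 0 := by
        rw [ga] at h1
        linear_combination (norm := module) (2⁻¹ : ℂ) • h1
      have h3 : E f (io Q v) = 0 := ext_inner_right ℂ fun z => by
        rw [← g.inv z, ← g.herm, h2, inner_zero_left, inner_zero_left]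
      rw [x _ _ hf, c f _ hf, h3, zero_add]
    intro C C' f f' v p p' hf hf' s
    obtain ⟨B, b, x⟩ := k C p
    obtain ⟨B', b', x'⟩ := k C' p'
    exact i (by rw [map_neg, x _ _ hf, x' _ _ hf', x' _ _ hf', x _ _ hf,
      g.anti B B' f f' _ b b' hf hf' s])
  · have l : IsLor fun m => sim 1 L 0 (L' m) := (P352X.EB.Sg.mul ⟨s, L, a, hs, hL⟩ ⟨s', L', a', hs', hL'⟩).hL
    refine (g.mul s L a s' L' a' hs hs' hL hL').imp (fun k v => i ?_) fun k =>
      ⟨k.1, k.2.1, fun v => i ?_⟩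
    · rw [rs_U hs hL, rs_U hs' hL', rs_U (mul_pos hs hs') l, k]
    · rw [r, rs_U hs hL, rs_U hs' hL', rs_U (mul_pos hs hs') l, k.2.2]

theorem rs_mfa (m : MfA Q) : MfA (rs Q h) := by
  rintro C ⟨B, b, x⟩
  obtain ⟨n, E, p, q⟩ := m B b
  have t : ∀ i, Q.fld (E i) := fun i => have ⟨_, _, a, c, d⟩ := p i; d ▸ c.1 a
  refine ⟨n, fun i => rf Q (E i), fun i => ?_, fun f v hf => (io Q).injective ?_⟩
  · obtain ⟨k, Φ, a, c, d⟩ := p i
    refine ⟨k, fun b => rf Q (Φ b), a, ⟨fun b => rs_fld (c.1 b), fun a L f v hL hf =>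
      (io Q).injective ?_⟩, congrArg _ d⟩
    simp only [map_sum, map_smul, rs_U one_pos hL, rf_xt (c.1 _) _ _ hf,
      rf_xt (c.1 _) _ _ (t_sim one_pos hL 0 hf), c.2 a L f _ hL hf]
  · simp only [map_sum, x _ _ hf, rf_xt (t _) _ _ hf, q f _ hf]

theorem rs_fsl (l : FSL Q) : FSL (rs Q h) := fun C c => by
  obtain ⟨B, b, x, o⟩ : ∃ B, Q.fld B ∧ Xt (io Q) C B ∧ ((rs Q h).bose C → Q.bose B) := by
    by_cases k : (rs Q h).bose C
    · exact k.imp fun B k => ⟨Q.bose_fld B k.1, k.2, fun _ => k.1⟩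
    · exact c.imp fun B a => ⟨a.1, a.2, fun a => (k a).elim⟩
  obtain ⟨F, E, p, q⟩ := l B b
  refine ⟨F, fun i => rf Q (E i), fun i => ⟨rs_fld (p i).1, fun k => rs_bose ((p i).2 (o k))⟩,
    fun s f v hs hf => (io Q).injective ?_⟩
  simp only [map_sum, map_smul, rs_U hs lor1, x _ _ hf, rf_xt (p _).1 _ _ (t_sim hs lor1 0 hf),
    q s f _ hs hf]

theorem rs_chg (b : ∀ m n, Q.fld (T m n)) (c : ∀ F n A f v w, IsCutoff F → Q.fld A → IsTest f →
    HasCompactSupport f → Tendsto (fun R => inner ℂ w (T o n (F R) (A f v) - A f (T o n (F R) v)))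
      atTop (𝓝 (inner ℂ w ((Complex.I * eta n) • A (pd n f) v)))) F n A f v w (hF : IsCutoff F)
    (a : (rs Q h).fld A) (hf : IsTest f) (k : HasCompactSupport f) :
    Tendsto (fun R => inner ℂ w (rf Q (T o n) (F R) (A f v) - A f (rf Q (T o n) (F R) v)))
      atTop (𝓝 (inner ℂ w ((Complex.I * eta n) • A (pd n f) v))) := by
  obtain ⟨B, a, x⟩ := a
  rw [← (io Q).inner_map_map, map_smul, x _ _ (t_pd n hf)]
  refine (c F n B f _ _ hF a hf k).congr' ?_
  obtain ⟨_, _, -, -, -, -, t⟩ := hF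
  filter_upwards [eventually_gt_atTop 0] with R hR
  rw [← (io Q).inner_map_map, map_sub, rf_xt (b _ _) _ _ (t R hR).1, x _ _ hf, x _ _ hf,
    rf_xt (b _ _) _ _ (t R hR).1]

theorem rs_st0 (t : Stress0 Q T) : Stress0 (rs Q h) fun m n => rf Q (T m n) := by
  have b := fun m n => Q.bose_fld _ (t.bose m n)
  have x := fun m n => rf_xt (b m n)
  have i := (io Q).injective
  refine ⟨fun m n => rs_bose (t.bose m n), fun m n f v hf => i (by
    rw [x _ _ _ _ hf, x _ _ _ _ hf, t.symm m n f _ hf]), fun m n => xadj (t.herm m n) (x m n) (x m n),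
    fun m n L a f v hL hf => i ?_, fun n f v hf => i ?_, rs_chg b t.charge⟩
  · simp only [map_sum, map_smul, rs_U one_pos hL, x _ _ _ _ hf, x _ _ _ _ (t_sim one_pos hL a hf),
      t.cov m n L a f _ hL hf]
  · simp only [map_sum, map_zero, x _ _ _ _ (t_pd _ hf), t.conserved n f _ hf]

theorem rs_st (t : Q.IsStress T) : (rs Q h).IsStress fun m n => rf Q (T m n) := by
  have b := fun m n => Q.bose_fld _ (t.bose m n)
  have x := fun m n => rf_xt (b m n)
  have i := (io Q).injective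
  refine ⟨fun m n => rs_bose (t.bose m n), fun m n f v hf => i (by
    rw [x _ _ _ _ hf, x _ _ _ _ hf, t.symm m n f _ hf]), fun m n => xadj (t.herm m n) (x m n) (x m n),
    fun m n s L a f v hs hL hf => i ?_, fun n f v hf => i ?_, rs_chg b t.charge⟩
  · simp only [map_sum, map_smul, rs_U hs hL, x _ _ _ _ hf, x _ _ _ _ (t_sim hs hL a hf),
      t.cov m n s L a f _ hs hL hf]
  · simp only [map_sum, map_zero, x _ _ _ _ (t_pd _ hf), t.conserved n f _ hf]

theorem rs_sect {R : Theory D'} {i : D →ₗᵢ[ℂ] D'} (s : Sect Q R i) :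
    Sect (rs Q h) R (i.comp (io Q)) := by
  refine ⟨s.vac, fun t L a v ht hL => (congrArg i (rs_U ht hL a v)).trans (s.U t L a _ ht hL),
    s.cov, ?_⟩
  rintro C C' ⟨B, b, x⟩ ad
  obtain ⟨B', b', ad'⟩ := Q.adj B (Q.bose_fld B b)
  obtain ⟨E, E', p, q, y, y'⟩ := s.bose B B' b ad'
  refine ⟨E, E', p, q, fun f v hf => (congrArg i (x f v hf)).trans (y f _ hf),
    fun f v hf => Eq.trans (congrArg i ?_) (y' f _ hf)⟩
  refine Eq.trans (congrArg _ (ext_inner_left ℂ fun w => ?_)) (rf_xt b' f v hf)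
  rw [← P352.H246.bar_bar f, ← ad _ _ _ (t_bar hf), ← xadj ad' x (rf_xt b') _ _ _ (t_bar hf)]

theorem rs_gen {u : ℝ → D → D} {u' j j'} (e : ∀ t v, io Q (u' t v) = u t (io Q v))
    (x : Xt (io Q) j' j) (k : Dn.Gen Q u j) : Dn.Gen (rs Q h) u' j' := by
  rintro F C f w hF ⟨B, b, y⟩ hf
  obtain ⟨c, p, q⟩ := k F B f (io Q w) hF b hf
  refine ⟨c, p.congr' ?_, ?_⟩
  · obtain ⟨_, _, -, -, -, -, t⟩ := hF
    filter_upwards [eventually_gt_atTop 0] with R hR
    rw [← (io Q).inner_map_map, Dn.cm, Dn.cm, map_sub, x _ _ (t R hR).1, y _ _ hf.1, y _ _ hf.1,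
      x _ _ (t R hR).1]
    rfl
  · simp only [← (io Q).inner_map_map w, e, y _ _ hf.1]
    exact q

theorem xt_cur (b : ∀ m n, Q.fld (T m n)) {r X} (hX : IsSim r X) :
    Xt (io Q) (Dn.cur (fun m n => rf Q (T m n)) X) (Dn.cur T X) := fun f v hf => by
  rw [Dn.cur, map_sum]
  refine Finset.sum_congr rfl fun n _ => rf_xt (b _ _) _ _ ?_
  obtain ⟨c, w, -, h⟩ := hX
  refine P352X.Ap.sw_congr (P352X.Ap.sw_cmul (eta n) (P352X.Ap.sw_rmul (u := fun x => X x n) ?_ hf))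
    fun x => mul_assoc _ _ _
  simp only [h]
  fun_prop

theorem rs_pgen (b : ∀ m n, Q.fld (T m n)) (p : Dn.PGen Q T) :
    Dn.PGen (rs Q h) fun m n => rf Q (T m n) := fun L a X h1 h2 h3 h4 h5 =>
  rs_gen (fun t => rs_U one_pos (h3 t) _) (xt_cur b h4) (p L a X h1 h2 h3 h4 h5)

theorem rs_vir {J : Ix → Fld D} (b : ∀ m n, Q.fld (T m n)) (p : Dn.Vir Q T J) :
    Dn.Vir (rs Q h) (fun m n => rf Q (T m n)) fun m => rf Q (J m) := by
  have x := fun m => rf_xt (Q.bose_fld _ (p.bose m))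
  refine ⟨fun m => rs_bose (p.bose m), fun f v hf => (io Q).injective ?_,
    rs_gen (fun t => rs_U (Real.exp_pos t) lor1 _) (fun f v hf => ?_) p.gen⟩
  · simp only [map_neg, map_sum, x _ _ _ (t_pd _ hf), ← p.div f _ hf, tr, map_smul,
      rf_xt (b _ _) _ _ hf]
  · rw [map_sub, x _ _ _ hf, xt_cur b (r := 1) ⟨0, 0, by simp, by simp⟩ _ _ hf]

end

end Vale.Agent.N352.F
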