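import Vale.Agent.N352.F.Br
import Vale.Agent.N352.Rn.Cv
import Vale.Agent.N352.U.WitD

/-!
# N352, block F: the witnesses
-/

set_option linter.all false

open Filter Topology

namespace Vale.Agent.N352.F

open P352.GF P352R P352R.P P352R.G
open UniformSpace (Completion)

noncomputable section

universe u

variable {D : Type u} [NormedAddCommGroup D] [InnerProductSpace ℂ D] {Q : Theory D} {G : D → D}
  {T : Ix → Ix → Fld D} {A : (V → V) → D → D} {Γ : Completion D →L[ℂ] Completion D}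
  {N : Set V → VonNeumannAlgebra (Completion D)}

open Rn.Cv in
/-- small diamonds -/
theorem dm_nhd {O : Set V} (hO : IsOpen O) {z : V} (hz : z ∈ O) :
    ∃ p ∈ O, ∃ q ∈ O, Cl (q - p) ∧ ∃ U, IsOpen U ∧ z ∈ U ∧ U ⊆ Dm p q := by
  obtain ⟨r, r0, k⟩ := Metric.isOpen_iff.1 hO z hz
  have n : ∀ t : ℝ, |t| < r → z + bas o t ∈ O := fun t h => k (by
    rw [mem_ball_iff_norm, add_sub_cancel_left]
    refine (pi_norm_lt_iff r0).2 fun i => ?_
    unfold bas
    split_ifs
    exacts [h, norm_zero.trans_lt r0])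
  refine ⟨_, n (-(r / 2)) (by rw [abs_neg, abs_of_pos (half_pos r0)]; linarith), _,
    n (r / 2) (by rw [abs_of_pos (half_pos r0)]; linarith),
    fun a z => (tl_of (by simp [bas, o, r0]) a z).le, Metric.ball z (r / 8), Metric.isOpen_ball,
    Metric.mem_ball_self (by linarith), fun x e => ?_⟩
  have e := (pi_norm_lt_iff (by linarith)).1 (mem_ball_iff_norm.1 e)
  have k0 : |x 0 - z 0| < r / 8 := e 0
  have k1 : |x 1 - z 1| < r / 8 := e 1
  have k2 : |x 2 - z 2| < r / 8 := e 2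
  have k3 : |x 3 - z 3| < r / 8 := e 3
  have k0 := abs_lt.1 k0
  refine ⟨tl_of ?_, tl_of ?_⟩ <;> simp [bas, o, abs_sub_comm (z _)] <;> linarith [k0.1, k0.2]

open Rn P352W.Net in
/-- **the net of the diamonds** -/
theorem net_all (h : LNg Q G A Γ N) : ∃ N', Dn.Net Q G Γ N' ∧ Dn.Aff Q N' ∧ Dn.Rel Q Γ N' :=
  let c : P352X.EG.Cg D := ⟨Q, G, A, Γ, N, Br.lng.1 h⟩
  have w : ∀ {O Y}, (∀ f, In O f → Y ∈ vn (Cv.Ak c (tsupport f))) → Dn.Wk Q O Y :=
    fun k _ _ f v w hB a hf _ _ => Cv.a_wk c hB a ⟨hf.1, hf.2.1, fun _ _ => trivial⟩ _ (k f hf) v w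
  ⟨fun O => vn (Cv.S c O), ⟨h.ext,
    fun _ _ _ _ e => vn_mono (Cv.s_star c _) (Cv.s_star c _)
      fun _ ⟨p, a, q, b, m⟩ => ⟨p, e a, q, e b, m⟩,
    fun s L y O _ X m hs hL => (Cv.cov c ⟨⟨s, L, y, hs, hL⟩, false⟩ O X m).imp fun Y k =>
      ⟨k.1, fun z => by
        have e := P352X.Ug_apply Q hs hL y
        exact ((congrArg Y (e z)).symm.trans (DFunLike.congr_fun k.2 z)).trans (e _)⟩,
    fun O _ => Cv.s_gam c O, fun _ _ _ _ s => Cv.loc c s⟩,
    fun O r Y y => w fun f hf => Cv.vn_sub (Cv.a_star c _) _ fun z k => by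
      obtain ⟨p, a, q, b, l, U, u1, u2, u3⟩ := dm_nhd r.1 (hf.2.2 k)
      exact ⟨U, u1, u2, VonNeumannAlgebra.mem_commutant_iff.2 fun X x =>
        VonNeumannAlgebra.mem_commutant_iff.1 y X
          (Cv.vn_sub (Cv.s_star c _) X ⟨p, a, q, b, l, h.mono _ _ u3 X x⟩)⟩,
    Cv.cyc c, fun _ _ _ _ s X m =>
      ⟨w fun f hf => (Cv.rel c (fun x a y b => s x a y (hf.2.2 b)) X m).1,
        w fun f hf => (Cv.rel c (fun x a y b => s x a y (hf.2.2 b)) X m).2⟩⟩

theorem net_aff (h : LNg Q G A Γ N) : ∃ N', Dn.Net Q G Γ N' ∧ Dn.Aff Q N' :=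
  (net_all h).imp fun _ k => ⟨k.1, k.2.1⟩

section ext

variable {E : Type*} [NormedAddCommGroup E] [InnerProductSpace ℂ E] {R : Theory E}
  {k : E →ₗᵢ[ℂ] Completion D} {e : Fld D → Fld E} {G' : E → E} (h : Dn.Ext Q Γ R k G' e)
include h

theorem ext_mem {w : D} (hw : Cyc Q w) : ∃ v : E, k v = w := by
  let S : Submodule ℂ D := N352.cy Q ⊓ (LinearMap.range k.toLinearMap).comap
    (Completion.toComplL (𝕜 := ℂ) (E := D)).toLinearMap
  have : w ∈ S := hw S ⟨cyc_vac, R.vac, h.vac⟩ fun A f v hA hf ⟨a, v', b⟩ =>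
    ⟨Cyc.fld a hA hf, _, h.agree A f v' v hA hf a b⟩
  exact this.2

/-- a Bose field of an extension is weakly local -/
theorem ext_wl {L : Fld E} (hL : R.bose L) (hh : IsAdj L L) {f : Fn} (hf : IsTest f)
    {X X' : D → D} (hX : Al Q (cc (tsupport f)) X X') :
    (∀ v, Cyc Q v → Cyc Q (X v)) ∧ (∀ w, Cyc Q w → Cyc Q (X' w)) ∧
    ∀ (v w : D) (v' w' : E), Cyc Q v → Cyc Q w → k v' = v → k w' = w →
      inner ℂ ((X' w : D) : Completion D) (k (L f v')) =
        inner ℂ (k (L (bar f) w')) ((X v : D) : Completion D) := by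
  induction hX with
  | one =>
    refine ⟨fun _ a => a, fun _ a => a, fun v w v' w' _ _ a b => ?_⟩
    rw [← a, ← b, k.inner_map_map, k.inner_map_map, hh _ _ _ (t_bar hf), P352.H246.bar_bar]
  | add X X' Y Y' _ _ a b =>
    refine ⟨fun v c => (N352.cy Q).add_mem (a.1 v c) (b.1 v c),
      fun v c => (N352.cy Q).add_mem (a.2.1 v c) (b.2.1 v c), fun v w v' w' c d p q => ?_⟩
    simp only [Completion.coe_add, inner_add_left, inner_add_right, a.2.2 v w v' w' c d p q,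
      b.2.2 v w v' w' c d p q]
  | smul z X X' _ a =>
    refine ⟨fun v c => (N352.cy Q).smul_mem z (a.1 v c),
      fun v c => (N352.cy Q).smul_mem _ (a.2.1 v c), fun v w v' w' c d p q => ?_⟩
    simp only [Completion.coe_smul, inner_smul_left, inner_smul_right, a.2.2 v w v' w' c d p q]
    simp
  | fld A B g X X' hA hB ad hg _ a =>
    refine ⟨fun v c => (a.1 v c).fld hA hg.1, fun w c => a.2.1 _ (c.fld hB (t_bar hg.1)),
      fun v w v' w' c d p q => ?_⟩
    obtain ⟨C, hC, ad'⟩ := R.adj _ (h.fld A hA)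
    have j : k (C (bar g) w') = (B (bar g) w : D) := cyc_ext (Q := Q) fun y hy => by
      obtain ⟨y', r⟩ := ext_mem h hy
      have k1 : inner ℂ (y : Completion D) (k (C (bar g) w')) =
          inner ℂ (y : Completion D) ((B (bar g) w : D) : Completion D) := by
        rw [Completion.inner_coe, ← ad g y w hg.1, ← Completion.inner_coe (A g y),
          ← h.agree A g y' y hA hg.1 hy r, ← q, ← r, k.inner_map_map, k.inner_map_map,
          ad' g y' w' hg.1]
      rw [← inner_conj_symm, k1, inner_conj_symm]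
    obtain ⟨x', r⟩ := ext_mem h (a.1 v c)
    have sp : Sep (bar f) (bar g) := fun x hx y hy => by
      rw [P352.H246.tsupport_bar] at hx hy
      exact hg.2.2 hy x hx
    rw [a.2.2 v _ v' _ c (d.fld hB (t_bar hg.1)) p j,
      R.loc L C _ _ _ hL hC (t_bar hf) (t_bar hg.1) sp,
      ← h.agree A g x' _ hA hg.1 (a.1 v c) r, ← r, k.inner_map_map, k.inner_map_map,
      ← inner_conj_symm, ← ad' g _ _ hg.1]
    exact inner_conj_symm (𝕜 := ℂ) (L (bar f) w') (e A g x')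

end ext

/-- **field reconstruction implies the completeness of the Borchers class** -/
theorem max_of_rec' (h : Rec Q) (Γ) : Dn.Max Q Γ Q .id := ⟨fun E _ _ R k G' e L x hL => by
  have hf := R.bose_fld _ hL.1
  obtain ⟨Φ, hΦ⟩ := h 0 2 (fun _ f => k (L f R.vac))
    ⟨fun _ f g c a b => by rw [R.lin L f g c _ hf a b, map_add, map_smul],
      fun _ => k.continuous.comp (R.cont L _ hf), fun μ s M a f hs hM b => by
        have := hL.2.2 s M a f R.vac hs hM b
        rw [R.U_vac _ _ _ hs hM] at this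
        rw [Fintype.sum_unique, this, map_smul, x.U _ _ _ _ hs hM]
        simp
        rfl⟩
    fun _ f X X' a b => (ext_wl x hL.1 hL.2.1 a.1 b).2.2 _ _ _ _ cyc_vac cyc_vac x.vac x.vac
  exact ⟨_, (hΦ default).1, fun f k => ((hΦ default).2 f k).trans
    (congrFun (Completion.map_id (α := D)) _).symm⟩⟩

theorem pgen' (g : Gnr Q A) (h : PCh Q T A) : Dn.PGen Q T :=
  fun L a X h1 h2 h3 h4 h5 F B f w hF hB hf => by
    have d := fun v => g (fun _ => 1) L a X v rfl h1 h2 (fun e => ⟨one_pos, h3 e⟩) h5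
    have z : A X Q.vac = 0 := by
      have := d Q.vac
      rw [show (fun e => Q.U 1 (L e) (a e) Q.vac) = fun _ => Q.vac from
        funext fun e => Q.U_vac _ _ _ one_pos (h3 e)] at this
      simpa using this.unique (hasDerivAt_const _ _)
    have k := h F X B f Q.vac w hF h4 hB hf.1 hf.2.1
    rw [z, show B f 0 = 0 from map_zero (fm hB hf.1), sub_zero] at k
    refine ⟨_, k, ?_⟩
    simpa only [inner_smul_right, innerSL_apply_apply, Function.comp_def,
      ContinuousLinearMap.coe_restrictScalars'] using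
      ((innerSL ℂ w).restrictScalars ℝ).hasFDerivAt.comp_hasDerivAt (0 : ℝ) (d (B f Q.vac))

theorem cts_of (g : Gnr Q A) (v : D) : ContinuousAt (fun s => Q.U s one 0 v) 1 := by
  have d := (g Real.exp (fun _ => one) (fun _ => 0) (fun x => x) v Real.exp_zero rfl rfl
    (fun e => ⟨Real.exp_pos e, lor1⟩) fun n x => by
      simpa [sim, one, bas] using (Real.hasDerivAt_exp 0).mul_const (x n)).continuousAt
  refine (d.comp_of_eq (Real.continuousAt_log one_ne_zero) Real.log_one).congr ?_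
  filter_upwards [lt_mem_nhds one_pos] with s hs
  simp only [Function.comp, Real.exp_log hs]

open P352 P352R.Le P352R.L22 P352L.StA in
/-- **the witness with a unique vacuum**, given its virial current -/
theorem wit_of (hJ : ∃ J, Dn.Vir fr.tq P352R.Tm J) :
    ∃ (E : Type) (_ : NormedAddCommGroup E) (_ : InnerProductSpace ℂ E), Dn.Wit E := by
  obtain ⟨A, N, ⟨a, b, -, -, n, u, x⟩, -, -, ⟨-, g, d⟩, ⟨B, l, m⟩, k⟩ := fr.topQ rec_fr
  obtain ⟨J, hJ⟩ := hJ
  obtain ⟨N', n1, n2, n3⟩ := net_all (lng_of n g)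
  have c : Dn.CntF fr.tq := ⟨cntF_tq.1, cntF_tq.2, cntF_tq.3, cts_of d⟩
  exact ⟨_, _, _, fr.tq, _, N', J, B, ⟨gr.2 g, rfl, stress a, pgen' d b, .inl ⟨J, hJ⟩, .inl c, n1,
    .inl n2⟩, max_of_rec' x _, u, hJ, c, n2, n3, l, m, k⟩

open U.Sm in
/-- **the witness with a degenerate vacuum** -/
theorem witD : ∃ (E : Type) (_ : NormedAddCommGroup E) (_ : InnerProductSpace ℂ E), Dn.WitD E := by
  obtain ⟨A, N, ⟨a, b, -, f, n, u, x⟩, -, m, ⟨-, g, -⟩, -, -, k, p, q⟩ := fr.topQ rec_fr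
  let c : P352X.EG.Cg _ := ⟨fr.tq, id, A, 1, N, Br.lng.1 (lng_of n g)⟩
  have h : Ok (Tn.bg c).Q := ⟨(Tn.bg_big c).one, zero_mem _⟩
  have a' := Br.stress0.2 (Tn.bg_st0 (c := c) (Br.stress0.1 a))
  have l := lnm_of (Br.lng.2 (Tn.bg c).hN)
  have n' := lng_of (lnm (h := h) l) (U.Sm.gr (Br.lng.2 (Tn.bg c).hN).toGr l.toRep)
  obtain ⟨N', n1, n2⟩ := net_aff n'
  exact ⟨_, _, _, sm h, _, N', ⟨F.gr.2 n'.toGr, rfl, stress (st0 a'),
    pgen' n'.der (pch (Tn.bg_pch (c := c) (fun m n => fr.tq.bose_fld _ (a.bose m n)) b)),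
    .inr (ivac u), .inr ⟨F.mfa.2 (U.Sm.mfa (Br.mfa.2 (Tn.bg_mfa (c := c) (Br.mfa.1 m)))),
      F.fsl.2 (U.Sm.fsl (Tn.bg_fsl (c := c) f))⟩, n1, .inl n2⟩,
    max_of_rec' (recon (h := h) fun k d φ p q => (x k d φ ⟨p.lin, p.cont, p.cov⟩ fun μ f X X' s t =>
      q μ f X X' s (Bg.al_enl (fun _ => Tn.bg_fld (c := c)) t)).imp fun _ r μ =>
        ⟨Tn.bg_bose (c := c) (r μ).1, (r μ).2⟩) _, not_uvac, k, p, trace a' p q⟩

end

end Vale.Agent.N352.F
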