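import Vale.Agent.N352.F.Pg

/-!
# N352, block F: the virial current of the witness (helper72)
-/

set_option linter.all false

open Filter Topology

namespace Vale.Agent.N352.F

open P352 P352.GF P352R P352X P352W P352L.StA
open P352.H746 (vf)
open UniformSpace (Completion)
open Complex (I)

variable {D : Type*} [NormedAddCommGroup D] [InnerProductSpace ℂ D] {Q : Theory D}
  {A : (V → V) → D → D} {T : Ix → Ix → Fld D} {φ j : Fld D} {f : Fn} {F : ℝ → Fn}

theorem Dens.unif (h : Dens Q j) (hF : IsCutoff F) (ρ : ℝ) : ∃ r0, ∀ r r', r0 ≤ r → r0 ≤ r' →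
    ∀ B f v, Q.fld B → P.In (Metric.ball 0 ρ) f → P.cm j (F r) B f v = P.cm j (F r') B f v := by
  obtain ⟨n, C, p, a, b, c⟩ := h
  let χ : Fn := (Metric.closedBall 0 ρ).indicator 1
  obtain ⟨r0, h0, k⟩ := Fss.far hF (f := χ) (HasCompactSupport.intro (isCompact_closedBall 0 ρ)
    fun x hx => Set.indicator_of_notMem hx _)
  refine ⟨r0, fun r r' hr hr' B f v hB hf => ?_⟩
  have t := cut_test hF (h0.trans_le hr)
  have t' := cut_test hF (h0.trans_le hr')
  have l : ∀ u, B f u = fm hB hf.1 u := fun _ => rfl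
  simp only [P.cm, c _ _ t, c _ _ t']
  rw [l (∑ i, _), l (∑ i, _), map_sum, map_sum, ← Finset.sum_sub_distrib, ← Finset.sum_sub_distrib]
  refine Finset.sum_congr rfl fun i _ => Fss.cm_eq (a i) hB hf.1 (b i _ t) (b i _ t')
    (fun x hx y hy => k r r' hr hr' _ (fun x e => by simp [e]) x hx y (subset_tsupport _ ?_)) v
  exact (Set.indicator_of_mem (Metric.ball_subset_closedBall (hf.2.2 hy)) _).trans_ne one_ne_zero

theorem dil_sc (hφ : Q.fld φ) (hf : IsTest f) (v : D) :
    ∑ n, φ (pd n fun x => (x n : ℂ) * f x) v -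
      ((1 / 4 : ℝ) : ℂ) • φ (fun x => dvg (fun n x => x n) x * f x) v =
    (((4 - 1) * 1 : ℝ) : ℂ) • φ f v + φ (vf id f) v := by
  have p : ∀ n x, pd n (fun y : V => (y n : ℂ)) x = 1 := fun n x => by
    simp only [pd, bas, if_true, Complex.ofReal_add]
    exact ((hasDerivAt_id (0 : ℝ)).ofReal_comp.const_add _).deriv
  have t : ∀ n, IsTest fun x => (x n : ℂ) * pd n f x := fun n => Fss.test_xg n (Ap.test_pd n hf)
  have e : ∀ n, (pd n fun x => (x n : ℂ) * f x) = fun x => f x + 1 * (x n * pd n f x) :=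
    fun n => funext fun x => by
      obtain ⟨g, rfl⟩ := hf
      rw [Sy.pd_mul (u := fun y => (y n : ℂ)) (f := ev g)
        (Complex.ofRealCLM.contDiff.comp (by fun_prop)) (g.smooth ⊤), p, one_mul, one_mul]
  have e' : vf id f = fun x => ∑ n, 1 * ((x n : ℂ) * pd n f x) := funext fun x => by simp [vf]
  simp only [e, fun n => Q.lin φ f _ 1 v hφ hf (t n), dvg, p, Fss.lin1 hφ hf]
  rw [e', Grp.fld_sum hφ _ _ t]
  simp only [Finset.sum_add_distrib, Finset.sum_const, Finset.card_univ, Fintype.card_fin]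
  push_cast
  module

/-- the Ward identity of the dilations for a scalar field of dimension one -/
theorem dil_ward (R : H15.Rep Q A) (hT : Q.IsStress T) {J : Ix → Fld D} (hJ : H246.IsVirial Q T J)
    (hc : H246.Curl J Q.vac) (k : CFS Q id (H246.improveJ T J))
    (hh : ∀ n f v w, IsTest f → inner ℂ (H246.improveJ T J o n f v) w =
      inner ℂ v (H246.improveJ T J o n (bar f) w)) (hφ : Q.IsScalar φ 1)
    (hF : IsCutoff F) (hf : P.In Set.univ f) (v w : D) :
    Tendsto (fun r => inner ℂ w (P.cm (fun g v => P.cur T id g v - J o g v) (F r) φ f v)) atTop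
      (𝓝 (inner ℂ w (A id (φ f v) - φ f (A id v)))) := by
  have := (k.mp false EG.rp0 ((1 : ℝ) : ℂ) (fun _ => φ) (fun _ => φ) (fun a M f v hM hf => by
    have := hφ.2.2 1 M 0 f v one_pos hM hf
    rw [Real.one_rpow] at this
    have e : ∀ (a : Fin 1) (w : D), ((1 : ℝ) : ℂ) • w =
        ∑ b : Fin 1, (1 : Matrix (Fin 1) (Fin 1) ℂ) b a • w := fun a w => by
      rw [Fin.sum_univ_one, Subsingleton.elim a 0]
      simp
    exact this.trans (e a _)) fun _ => ⟨fun s f v hs hf => by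
      rw [hφ.2.2 s _ 0 f v hs lor1 hf, Complex.ofReal_cpow hs.le]
      push_cast
      rfl, hφ.1, hφ.2.1⟩).1 1 id dil_sim (0 : Fin 1) f w v F hf hF
  have b := Q.bose_fld _ hφ.1
  rw [Rp.A_sc R hφ dil_sim hf.1, add_sub_cancel_left, inner_smul_right, ← dil_sc b hf.1]
  convert this.congr' ?_ using 3
  · rw [← Completion.inner_coe, Completion.coe_sub, Completion.coe_smul,
      ← Completion.coe_toComplL (𝕜 := ℂ), map_sum]
    simp [EG.rp0]
    rfl
  filter_upwards [H496.ch_curl hT hJ hc hF b hf.1 hf.2.1, eventually_gt_atTop 0] with r h r0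
  have h := h 1 id v dil_sim
  simp only [H496.chJ, Complex.ofReal_mul, smul_zero, sub_zero, Complex.ofReal_one, one_smul] at h
  obtain ⟨a, c, -, -, -, -, q⟩ := hF
  have e : ∀ u, inner ℂ (Dn.cur (H246.improveJ T J) id (F r) w) u =
      inner ℂ w (Dn.cur (H246.improveJ T J) id (F r) u) := fun u => by
    simp only [Dn.cur, sum_inner, inner_sum]
    refine Finset.sum_congr rfl fun n _ =>
      (hh n _ _ _ (Gl.test_cur dil_sim n (q r r0).1)).trans ?_
    congr 2
    funext x
    simp [bar, (q r r0).2]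
  refine Eq.trans ?_ (congrArg (inner ℂ w) h)
  rw [inner_sub_right, ← inner_conj_symm w (φ f _), hφ.2.1 f _ w hf.1, inner_conj_symm]
  exact congrArg₂ _ ((congrArg₂ _ chg rfl).trans ((Completion.inner_coe _ _).trans (e _)))
    ((congrArg₂ _ rfl chg).trans (Completion.inner_coe _ _))

/-- **the virial current of the witness** -/
theorem vir_of {Ω : D} {U} {S : Fld D → Prop} (h : Fr Ω φ T U S) (r : L.Rec h.tq) :
    ∃ J, Dn.Vir h.tq T J := by
  obtain ⟨A, hA⟩ := h.rep
  obtain ⟨N, hN⟩ := Net.lnm hA h.scalar h.raw h.fil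
  have s : h.tq.IsStress T := P352H.str (h.stress hA)
  have l : BW.LNm h.tq A N := lnm hN
  have p : ND.PCh h.tq T A := P352H.pch hA h.pT (h.pch hA)
  obtain ⟨J, hJ, hc⟩ := CA.G.curl_thm h.tq A T p (tfg h.tf) N l h.uvac s (CA.G.LG.rec_of r)
  have i := H246D.impr_of_curl s hJ hc
  have k := (CA.G.LG.conf_id s hJ i (CA.gm_of l.toRep
    (CA.mix_of h.tq T s A p (tfg h.tf) N l h.uvac))).cfs
  have d := (dens_cur s.bose dil_sim).sub (dens_one (hJ.bose o))
  have dr := Tn.Der.crv (Q := h.tq) hA.der dil_crv (X := id) (by simp)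
  refine ⟨J, hJ.bose, hJ.div, gen_of dr (Pg.vac dil_crv dr) fun F B f w hF hB hf =>
    tendsto_const_nhds.congr' ?_⟩
  obtain ⟨ρ, hρ⟩ := hf.2.1.isCompact.isBounded.subset_ball 0
  obtain ⟨r0, u⟩ := d.unif hF ρ
  filter_upwards [eventually_ge_atTop r0, isTest_cutoff hF] with r hr t
  obtain ⟨Y', a⟩ := (d.lp (G := id) t).adj
  let Y : D →ₗ[ℂ] D := (d.lp (G := id) t).lin.mk' _ - Pg.lin dil_crv dr
  have e : ∀ B v, h.tq.fld B → ∀ f, IsTest f → (B f (Y v) = Y (B f v) ↔
      A id (B f v) - B f (A id v) = P.cm (fun g v => P.cur T id g v - J o g v) (F r) B f v) :=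
    fun B v b f t => by
      rw [show B f (Y v) = _ from (fm b t).map_sub _ _, sub_eq_iff_eq_add, P.cm,
        sub_eq_sub_iff_add_eq_add, LinearMap.sub_apply, sub_add_eq_add_sub, eq_sub_iff_add_eq,
        add_comm]
      rfl
  refine congrArg _ ((e B _ hB f hf.1).1 (sp_ind (p := fun B => B f (Y _) = Y (B f _)) hB
    (fun B b => h.raw.cm b Metric.isOpen_ball ⟨hf.1, hf.2.1, hρ⟩ (Y' := fun w => Y' w - A id w)
      (fun v w => ?_) (fun g v q => (e φ v (sp_of h.pφ) g q.1).2 (ext_inner_left ℂ fun z => ?_)) _)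
    (map_zero Y).symm fun B C c x y => by rw [map_add, map_smul, ← x, ← y]))
  · rw [inner_sub_right, ← a, ← H746.A_symm l.toRep dil_sim, ← inner_sub_left]
    rfl
  · exact tendsto_nhds_unique (dil_ward l.toRep s hJ hc k (i.herm o) ⟨sp_of h.pφ, h.scalar.2⟩ hF
      ⟨q.1, q.2.1, Set.subset_univ _⟩ v z) (tendsto_const_nhds.congr' ((eventually_ge_atTop r0).mono
        fun r' hr' => congrArg _ (u r r' hr hr' φ g v (sp_of h.pφ) q)))

theorem vir_fr : ∃ J, Dn.Vir fr.tq Tm J := vir_of fr rec_fr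

end Vale.Agent.N352.F
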