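import Vale.Agent.N352.F.Key
import Vale.Agent.N352.F.Rs
import Vale.Agent.N352.F.Rl
import Vale.Agent.N352.F.Pg
import Vale.Agent.N352.F.Cn
import Vale.Agent.N352.F.Wt
import Vale.Agent.N352.F.Wv
import Vale.Agent.N352.U.All
import Vale.Agent.N352.U.Brg

/-!
# N352, block F: the theorem without generators
-/

set_option linter.all false

namespace Vale.Agent.N352.F

open P352.GF P352R P352R.P P352R.G
open UniformSpace (Completion)

universe u v

variable {D : Type u} {D' : Type v} [NormedAddCommGroup D] [InnerProductSpace ℂ D]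
  [NormedAddCommGroup D'] [InnerProductSpace ℂ D'] {Q : Theory D} {G : D → D}
  {T : Ix → Ix → Fld D} {Γ : Completion D →L[ℂ] Completion D}
  {N : Set V → VonNeumannAlgebra (Completion D)}

theorem flds (h : Dn.Hy Q G T Γ N) : MfA Q ∧ FSL Q :=
  h.fields.elim (cnt_of (gr.1 h.grading) h.even (fun m n => Q.bose_fld _ (h.stress.bose m n))
    h.poincare) (And.imp mfa.1 fsl.1)

/-- the restriction to the domain generated by the fields has generators and a local net -/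
theorem red (h : Dn.Hy Q G T Γ N) : ∃ (k : Ok Q) (A N' : _), GI.Ge (rs Q k) (rg Q G) A ∧
    LNg (rs Q k) (rg Q G) A (pg Q Γ) N' ∧ PCh (rs Q k) (fun m n => rf Q (T m n)) A ∧
      Dn.IVac (rs Q k) := by
  have g := gr.1 h.grading
  have b := fun m n => Q.bose_fld _ (h.stress.bose m n)
  obtain ⟨m, l⟩ := flds h
  have k := ok_of g m l
  obtain ⟨A, a⟩ := (GI.thm _).gen (rs Q k) _ (rs_gr g h.even) (rs_even g h.even) rs_cy (rs_mfa m)
    (rs_fsl l)
  obtain ⟨N', n⟩ := net_of a (rs_mfa m) rs_cy (rs_rst.net (rg_coe g h.even) h.net)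
    (rs_rst.rel (h.strong.elim (rel_of_aff g h.net) id))
  have c := fun m n => rs_bose (h := k) (h.stress.bose m n)
  have p := pch_of a (rs_mfa m) c (rs_pgen b h.poincare)
  exact ⟨k, A, N', a, n, p, h.scale.elim
    (fun ⟨J, j⟩ => ivac_of n (rs_mfa m) (rs_fsl l) c p (rs_vir b j)) rs_rst.ivac⟩

theorem self (h : Dn.Hy Q G T Γ N) : Dn.Over Q T Q .id G T :=
  ⟨sect.2 ⟨rfl, fun _ _ _ _ _ _ => rfl, Pf.cova (Br.gr.1 (gr.1 h.grading)) (Br.mfa.1 (flds h).1)
    (flds h).2, fun B C p q => ⟨B, C, p, q, fun _ _ _ => rfl, fun _ _ _ => rfl⟩⟩, h.grading,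
    h.stress, h.poincare, fun _ _ _ _ _ => rfl⟩

theorem sup (h : Dn.Hy Q G T Γ N) {R : Theory D'} {i G' T'} (o : Dn.Over Q T R i G' T')
    (x : Dn.Max Q Γ R i) : ∃ t, N352.Conf R G' T' t := by
  obtain ⟨k, A, N', -, n, p, z⟩ := red h
  obtain ⟨m, l⟩ := flds h
  exact key (U.rows _) ⟨rs Q k, _, A, _, N', Br.lng.1 n⟩ (Br.mfa.1 (rs_mfa (h := k) m))
    (rs_fsl (h := k) l) z
    (Br.stress0.1 (rs_st0 (h := k) (st0_of (gr.1 h.grading) h.stress h.poincare))) p
    (rs_sect (h := k) (sect.1 o.sect)) (gr.1 o.grading)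
    (st0_of (gr.1 o.grading) o.stress o.poincare) o.poincare
    (fun m n f v hf => (congrArg i (rf_xt (Q.bose_fld _ (h.stress.bose m n)) f v hf)).trans
      (o.ext m n f _ hf)) ((rs_rst (h := k)).max (fun _ => rf_xt) x)

theorem dim4 (h : Dn.Hy Q G T Γ N) : ∃ S, Q.IsStress S ∧ Dn.PGen Q S ∧ Dn.Same Q T S := by
  obtain ⟨k, A, N', a, n, p, z⟩ := red h
  obtain ⟨m, l⟩ := flds h
  have s := st0_of (gr.1 h.grading) h.stress h.poincare
  obtain ⟨-, S, -, -, s1, s2, s3, -⟩ := four (U.rows _) ⟨rs Q k, _, A, _, N', Br.lng.1 n⟩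
    (Br.mfa.1 (rs_mfa (h := k) m)) (rs_fsl (h := k) l) z (Br.stress0.1 (rs_st0 (h := k) s)) p
    (rs_sect (h := k) (sect.1 (self h).sect)) (gr.1 h.grading) s h.poincare
    fun m n => rf_xt (Q.bose_fld _ (s.bose m n))
  exact ⟨S, s1, s2, s3⟩

theorem ext (h : Dn.Hy Q G T Γ N) {S} (s1 : Q.IsStress S) (s2 : Dn.PGen Q S) :
    ∃ (E : Submodule ℂ (Completion (N352.cy Q))) (P : Theory E)
      (G' : E → E) (e : Fld D → Fld E) (t : Ix → Ix → Fld E),
      Dn.Ext Q Γ P ((je Q).toLinearIsometry.comp E.subtypeₗᵢ) G' e ∧ N352.Desc P G' t ∧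
        ∀ R, IsEnl P R → Gr R G' → N352.Conf R G' (fun m n => e (S m n)) t := by
  obtain ⟨k, A, N', a, n, -, z⟩ := red h
  obtain ⟨m, l⟩ := flds h
  have m' := rs_mfa (h := k) m
  have p := pch_of a m' (fun m n => rs_bose (h := k) (s1.bose m n))
    (rs_pgen (h := k) (fun m n => Q.bose_fld _ (s1.bose m n)) s2)
  obtain ⟨E, P, G', e, t, a1, a2, a3⟩ := exten (U.rows _) ⟨rs Q k, _, A, _, N', Br.lng.1 n⟩
    (Br.mfa.1 m') (rs_fsl (h := k) l) z (rs_st (h := k) s1) p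
  exact ⟨E, P, G', fun B => e (rf Q B), t, (rs_rst (h := k)).ext (fun _ => rf_xt) a1, a2, a3⟩

variable (D D') in
/-- **the theorem** -/
theorem thm : Dn.Thm D D' where
  conf Q G T Γ N h x :=
    have ⟨t, c⟩ := sup h (self h) x
    ⟨t, conf c, desc (c.desc (flds h).1 (flds h).2)⟩
  sup Q G T Γ N R i G' T' h o x := (sup h o x).imp fun _ => conf
  ext Q G T Γ N h :=
    have ⟨S, s1, s2, s3⟩ := dim4 h
    have ⟨E, P, G', e, t, a1, a2, a3⟩ := ext h s1 s2
    ⟨S, s1, s3, E, inferInstance, inferInstance, P, _, G', e, t, a1, desc a2,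
      fun R p q => conf (a3 R (enl.1 p) (gr.1 q))⟩
  uni _ := Bg.ivac_of

theorem wit : ∃ (E : Type) (_ : NormedAddCommGroup E) (_ : InnerProductSpace ℂ E), Dn.Wit E :=
  wit_of vir_fr

end Vale.Agent.N352.F
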