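import Vale.Agent.N352.F.Br
import Vale.Agent.P352W.Net.Vn

/-!
# N352, block F: transport of the Hilbert space to the completion of the generated domain
-/

set_option linter.all false

open Filter Topology

namespace Vale.Agent.N352.F

open P352.GF P352R P352R.P P352W.Net
open UniformSpace (Completion)

noncomputable section

section pull

variable {H K : Type*} [NormedAddCommGroup H] [InnerProductSpace ℂ H] [CompleteSpace H]
  [NormedAddCommGroup K] [InnerProductSpace ℂ K] [CompleteSpace K]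
  (φ : (H →L[ℂ] H) ≃⋆ₐ[ℂ] (K →L[ℂ] K)) (M : VonNeumannAlgebra K) {X : H →L[ℂ] H}

/-- the pull back of a von Neumann algebra -/
def pv : VonNeumannAlgebra H := cmt {X | φ X ∈ M.commutant}

theorem p_mul (X Y) : φ (X * Y) = φ X * φ Y := φ.map_mul' X Y

theorem p_add (X Y) : φ (X + Y) = φ X + φ Y := φ.map_add' X Y

theorem p_sub (X Y) : φ (X - Y) = φ X - φ Y := by rw [eq_sub_iff_add_eq, ← p_add, sub_add_cancel]

theorem p_sur (Y) : ∃ X, φ X = Y := ⟨_, φ.apply_symm_apply Y⟩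

theorem pv0 (S : Set (K →L[ℂ] K)) :
    (∀ Y, φ Y ∈ S → Y * X = X * Y) ↔ ∀ Y ∈ S, Y * φ X = φ X * Y :=
  ⟨fun h Y a => by
    obtain ⟨Y, rfl⟩ := p_sur φ Y
    rw [← p_mul, h Y a, p_mul], fun h Y a => φ.injective
      ((p_mul φ _ _).trans ((h _ a).trans (p_mul φ _ _).symm))⟩

theorem mem_pv : X ∈ pv φ M ↔ φ X ∈ M := by
  refine (mem_cmt fun g a => (congrArg (· ∈ M.commutant) (φ.map_star' g)).mpr (star_mem a)).trans
    ((pv0 φ M.commutant).trans ?_)
  conv_rhs => rw [← M.commutant_commutant, VonNeumannAlgebra.mem_commutant_iff]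
  rfl

theorem mem_pv' : X ∈ (pv φ M).commutant ↔ φ X ∈ M.commutant := by
  simp only [VonNeumannAlgebra.mem_commutant_iff, mem_pv]
  exact pv0 φ M

end pull

universe u

variable {D : Type u} {D' : Type*} [NormedAddCommGroup D] [InnerProductSpace ℂ D]
  [NormedAddCommGroup D'] [InnerProductSpace ℂ D'] {Q : Theory D} {G : D → D}
  {Γ : Completion D →L[ℂ] Completion D} {N : Set V → VonNeumannAlgebra (Completion D)}

variable (Q) in
/-- the completion of the generated domain is the Hilbert space -/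
def je : Completion (N352.cy Q) ≃ₗᵢ[ℂ] Completion D :=
  .ofSurjective ((jc (N352.cy Q).subtypeₗᵢ).toLinearMap.isometryOfInner jc_inner) fun z => by
    have d : Dense (N352.cy Q : Set D) :=
      Q.cyclic _ cyc_vac fun A f v hA hf hv => Cyc.fld hv hA hf
    refine (Completion.denseRange_coe.dense_image (Completion.continuous_coe D) d).induction
      (P := fun z => z ∈ Set.range _) ?_ (LinearIsometry.isometry _).isClosedEmbedding.isClosed_range z
    rintro _ ⟨v, hv, rfl⟩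
    exact ⟨((⟨v, hv⟩ : N352.cy Q) : Completion _), jc_coe _⟩

theorem je_coe (v : N352.cy Q) : je Q v = ((v : D) : Completion D) := jc_coe v

theorem je_jc (z) : je Q z = jc (N352.cy Q).subtypeₗᵢ z := rfl

theorem jc_je {i : D →ₗᵢ[ℂ] D'} (z) : jc i (je Q z) = jc (i.comp (N352.cy Q).subtypeₗᵢ) z :=
  Completion.induction_on z (isClosed_eq ((jc i).continuous.comp (je Q).continuous)
    (jc _).continuous) fun v => by
      rw [je_coe, jc_coe, jc_coe]
      rfl

variable (Q Γ) in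
/-- the grading -/
def pg : Completion (N352.cy Q) →L[ℂ] Completion (N352.cy Q) := (je Q).conjStarAlgEquiv.symm Γ

variable (Q N) in
/-- the net -/
def pb (O : Set V) : VonNeumannAlgebra (Completion (N352.cy Q)) := pv (je Q).conjStarAlgEquiv (N O)

theorem je_pg (z) : je Q (pg Q Γ z) = Γ (je Q z) := (je Q).apply_symm_apply _

theorem je_cj (X : Completion (N352.cy Q) →L[ℂ] Completion (N352.cy Q)) (z) :
    (je Q).conjStarAlgEquiv X (je Q z) = je Q (X z) := by
  rw [LinearIsometryEquiv.conjStarAlgEquiv_apply_apply, LinearIsometryEquiv.symm_apply_apply]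

theorem cj_pg : (je Q).conjStarAlgEquiv (pg Q Γ) = Γ := StarAlgEquiv.apply_symm_apply _ _

variable (Q) in
/-- `P` is the restriction of `Q` to the generated domain -/
structure Rst (P : Theory (N352.cy Q)) : Prop where
  vac : (P.vac : D) = Q.vac
  U : ∀ s L a v, 0 < s → IsLor L → (P.U s L a v : D) = Q.U s L a v
  fld : ∀ B, P.fld B ↔ ∃ C, Q.fld C ∧ Xt (N352.cy Q).subtypeₗᵢ B C
  bose : ∀ B, P.bose B ↔ ∃ C, Q.bose C ∧ Xt (N352.cy Q).subtypeₗᵢ B C

namespace Rst

variable {P : Theory (N352.cy Q)} (h : Rst Q P)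
include h

theorem om : je Q (P352R.P.om P) = P352R.P.om Q := (je_coe _).trans (congrArg _ h.vac)

theorem ue {s : ℝ} {L : Ix → V} (hs : 0 < s) (hL : IsLor L) (a : V) (z) :
    je Q (Ue P s L a z) = Ue Q s L a (je Q z) :=
  Completion.induction_on z (isClosed_eq ((je Q).continuous.comp Completion.continuous_map)
    (Completion.continuous_map.comp (je Q).continuous)) fun v => by
      rw [ue_coe hs hL, je_coe, je_coe, ue_coe hs hL, h.U _ _ _ _ hs hL]

theorem net {G' : N352.cy Q → N352.cy Q} (g : ∀ v, (G' v : D) = G v) (n : Dn.Net Q G Γ N) :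
    Dn.Net P G' (pg Q Γ) (pb Q N) where
  ext v := (je Q).injective (by rw [je_pg, je_coe, je_coe, n.ext, g])
  mono O O' o o' e X hX := (mem_pv _ _).2 (n.mono O O' o o' e _ ((mem_pv _ _).1 hX))
  cov s L y O o X hX hs hL := by
    obtain ⟨Y, a, b⟩ := n.cov s L y O o _ ((mem_pv _ _).1 hX) hs hL
    obtain ⟨Y, rfl⟩ := p_sur (je Q).conjStarAlgEquiv Y
    refine ⟨Y, (mem_pv _ _).2 a, fun z => (je Q).injective ?_⟩
    rw [← je_cj]
    exact (congrArg _ (h.ue hs hL y z)).trans ((b _).trans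
      ((congrArg _ (je_cj X z)).trans (h.ue hs hL y _).symm))
  gam O o X hX := (mem_pv _ _).2 (by
    simpa only [p_mul, cj_pg] using n.gam O o _ ((mem_pv _ _).1 hX))
  loc O O' o o' s X hX := by
    simpa only [pb, mem_pv', p_mul, p_add, p_sub, cj_pg] using
      n.loc O O' o o' s _ ((mem_pv _ _).1 hX)

theorem wk {O Y} (w : Dn.Wk Q O ((je Q).conjStarAlgEquiv Y)) : Dn.Wk P O Y :=
  fun B B' f v u hB ad hf _ _ => by
    obtain ⟨C, c, x⟩ := (h.fld B).1 hB
    obtain ⟨C', c', ad'⟩ := Q.adj C c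
    have e : (B' (bar f) u : D) = C' (bar f) u := Completion.coe_injective D <|
      cyc_ext (Q := Q) fun y hy => by
        rw [Completion.inner_coe, Completion.inner_coe, ← inner_conj_symm, ← inner_conj_symm (C' _ _),
          ← ad' _ _ _ hf.1]
        exact congrArg _ ((ad f ⟨y, hy⟩ u hf.1).symm.trans (congrArg (inner ℂ · _) (x f _ hf.1)))
    have := w C C' f v u c ad' hf v.2 u.2
    rw [← e, ← show (B f v : D) = C f v from x f v hf.1] at this
    simpa only [← je_coe, je_cj, LinearIsometryEquiv.inner_map_map] using this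

theorem rel (r : Dn.Rel Q Γ N) : Dn.Rel P (pg Q Γ) (pb Q N) where
  cyc := ((je Q).symm.surjective.denseRange.dense_image (je Q).symm.continuous r.cyc).mono (by
    rintro _ ⟨_, ⟨O, o, X, a, rfl⟩, rfl⟩
    obtain ⟨X, rfl⟩ := p_sur (je Q).conjStarAlgEquiv X
    refine ⟨O, o, X, (mem_pv _ _).2 a, (je Q).symm_apply_eq.2 ?_⟩
    exact (congrArg _ h.om.symm).trans (je_cj X _))
  rel O O' o o' s X hX := by
    have := r.rel O O' o o' s _ ((mem_pv _ _).1 hX)
    exact ⟨h.wk (by simpa only [p_mul, p_add, cj_pg] using this.1),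
      h.wk (by simpa only [p_mul, p_sub, cj_pg] using this.2)⟩

theorem aff (r : Dn.Aff Q N) : Dn.Aff P (pb Q N) := fun O o Y hY =>
  h.wk (r O o _ ((mem_pv' _ _).1 hY))

theorem ivac (r : Dn.IVac Q) : Dn.IVac P := fun z hz s L hs hL => (je Q).injective <|
  (h.ue hs hL 0 z).trans (r _ (fun a => (h.ue one_pos lor1 a z).symm.trans (congrArg _ (hz a)))
    s L hs hL)

theorem cyc {w : D} (hw : Cyc Q w) {ρ : Fld D → Fld (N352.cy Q)}
    (x : ∀ B, Q.fld B → Xt (N352.cy Q).subtypeₗᵢ (ρ B) B) : Cyc P ⟨w, hw⟩ := fun S a b => by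
  obtain ⟨v, c, rfl⟩ : w ∈ S.map (N352.cy Q).subtype := hw _ ⟨_, a, h.vac⟩ (by
    rintro B f _ hB hf ⟨v, c, rfl⟩
    exact ⟨_, b (ρ B) f v ((h.fld _).2 ⟨B, hB, x B hB⟩) hf c, x B hB f v hf⟩)
  exact c

theorem ext {N0} {E : Submodule ℂ (Completion (N352.cy Q))} {R : Theory E} {G' e}
    {ρ : Fld D → Fld (N352.cy Q)} (x : ∀ B, Q.fld B → Xt (N352.cy Q).subtypeₗᵢ (ρ B) B)
    (k : N352.Ext P (pg Q Γ) N0 R G' e) :
    Dn.Ext Q Γ R ((je Q).toLinearIsometry.comp E.subtypeₗᵢ) G' fun B => e (ρ B) where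
  toGr := gr.2 k.toGr
  vac := (congrArg (je Q) k.vac).trans h.om
  G v := (congrArg (je Q) (k.G v)).trans (je_pg _)
  U s L a v hs hL := (congrArg (je Q) (k.U s L a v hs hL)).trans (h.ue hs hL a _)
  fld B b := k.fld _ ((h.fld _).2 ⟨B, b, x B b⟩)
  bos B b := k.bos _ ((h.bose _).2 ⟨B, b, x B (Q.bose_fld B b)⟩)
  adj B B' b b' ad := k.adj _ _ ((h.fld _).2 ⟨B, b, x B b⟩) ((h.fld _).2 ⟨B', b', x B' b'⟩)
    fun f v w hf => (congrArg (inner ℂ · _) (x B b f v hf)).trans ((ad f _ _ hf).trans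
      (congrArg (inner ℂ _) (x B' b' _ w (t_bar hf)).symm))
  agree B f v w b hf hw e := (congrArg (je Q) (k.agree _ f v ⟨w, hw⟩ ((h.fld _).2 ⟨B, b, x B b⟩) hf
    (h.cyc hw x) ((je Q).injective (e.trans (je_coe ⟨w, hw⟩).symm)))).trans
      ((je_coe _).trans (congrArg _ (x B b f _ hf)))

theorem max {N0} {R : Theory D'} {i : D →ₗᵢ[ℂ] D'} {ρ : Fld D → Fld (N352.cy Q)}
    (x : ∀ B, Q.fld B → Xt (N352.cy Q).subtypeₗᵢ (ρ B) B) (m : Dn.Max Q Γ R i) :
    N352.Max P (pg Q Γ) N0 R (i.comp (N352.cy Q).subtypeₗᵢ) := fun E S G' e L k l => by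
  obtain ⟨B, a, b⟩ := m.max E S _ G' _ L (h.ext x k) l
  refine ⟨B, a, fun f hf => (b f hf).trans ?_⟩
  exact jc_je _

end Rst

end

end Vale.Agent.N352.F
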