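import Vale.Agent.N352.F.Br
import Vale.Agent.N352.Gen
import Vale.Agent.P352.BW.T.Rs
import Vale.Agent.P352.H246.CfExt

/-!
# N352, block F: local polynomials that annihilate the vacuum vanish
-/

set_option linter.all false

open Filter Topology

namespace Vale.Agent.N352.F

open P352.GF P352R.P
open UniformSpace (Completion)

noncomputable section

variable {D : Type*} [NormedAddCommGroup D] [InnerProductSpace ℂ D] {Q : Theory D} {G : D → D}
  {s s' : ℂ} {K K' : Set V} {Y Z : D → D} {B C : Fld D} {f : Fn} {j j' : Fld D}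

/-- operators of parity `s` that are localized in `K` -/
structure Lp (Q : Theory D) (G : D → D) (s : ℂ) (K : Set V) (Y : D → D) : Prop where
  adj : ∃ Y' : D → D, ∀ v w, inner ℂ (Y v) w = inner ℂ v (Y' w)
  bos : ∀ C g v, Q.bose C → In (cc K) g → Y (C g v) = C g (Y v)
  fer : ∀ C g v, Fer Q G C → In (cc K) g → Y (C g v) = s • C g (Y v)

theorem sep_cc (h : tsupport f ⊆ K) {g : Fn} (hg : In (cc K) g) : Sep f g :=
  fun x hx y hy => hg.2.2 hy x (h hx)

theorem sep_symm {g : Fn} (h : Sep f g) : Sep g f := fun x hx y hy => by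
  have := h y hy x hx
  simp only [mdot] at this ⊢
  exact lt_of_eq_of_lt (Finset.sum_congr rfl fun m _ => by ring) this

namespace Lp

theorem lin (h : Lp Q G s K Y) : IsLinearMap ℂ Y :=
  have ⟨_, e⟩ := h.adj
  ⟨fun v w => ext_inner_right ℂ fun z => by simp only [e, inner_add_left],
    fun c v => ext_inner_right ℂ fun z => by simp only [e, inner_smul_left]⟩

theorem mono (h : Lp Q G s K Y) (k : K ⊆ K') : Lp Q G s K' Y :=
  ⟨h.adj, fun C g v a b => h.bos C g v a ⟨b.1, b.2.1, fun y hy x hx => b.2.2 hy x (k hx)⟩,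
    fun C g v a b => h.fer C g v a ⟨b.1, b.2.1, fun y hy x hx => b.2.2 hy x (k hx)⟩⟩

theorem congr (h : Lp Q G s K Y) (e : ∀ v, Z v = Y v) : Lp Q G s K Z := funext e ▸ h

theorem zero' : Lp Q G s K fun _ => 0 :=
  ⟨⟨fun _ => 0, fun _ _ => by simp⟩, fun C g v a b => (map_zero (fm (Q.bose_fld _ a) b.1)).symm,
    fun C g v a b => by rw [show C g 0 = 0 from map_zero (fm a.1 b.1), smul_zero]⟩

theorem add (h : Lp Q G s K Y) (k : Lp Q G s K Z) : Lp Q G s K fun v => Y v + Z v := by
  obtain ⟨Y', a⟩ := h.adj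
  obtain ⟨Z', b⟩ := k.adj
  refine ⟨⟨fun w => Y' w + Z' w, fun v w => by rw [inner_add_left, inner_add_right, a, b]⟩,
    fun C g v p q => ?_, fun C g v p q => ?_⟩
  · rw [h.bos C g v p q, k.bos C g v p q]
    exact (map_add (fm (Q.bose_fld _ p) q.1) _ _).symm
  · rw [h.fer C g v p q, k.fer C g v p q, ← smul_add]
    exact congrArg _ (map_add (fm p.1 q.1) _ _).symm

theorem smul (h : Lp Q G s K Y) (c : ℂ) : Lp Q G s K fun v => c • Y v := by
  obtain ⟨Y', a⟩ := h.adj
  refine ⟨⟨fun w => star c • Y' w, fun v w => by rw [inner_smul_left, inner_smul_right, a]; rfl⟩,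
    fun C g v p q => ?_, fun C g v p q => ?_⟩
  · rw [h.bos C g v p q]
    exact (map_smul (fm (Q.bose_fld _ p) q.1) _ _).symm
  · rw [h.fer C g v p q, smul_comm]
    exact congrArg _ (map_smul (fm p.1 q.1) _ _).symm

theorem sub (h : Lp Q G s K Y) (k : Lp Q G s K Z) : Lp Q G s K fun v => Y v - Z v :=
  (h.add (k.smul (-1))).congr fun v => by module

theorem sum {ι : Type*} (S : Finset ι) {Y : ι → D → D} (h : ∀ i, Lp Q G s K (Y i)) :
    Lp Q G s K fun v => ∑ i ∈ S, Y i v := by
  classical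
  induction S using Finset.induction_on with
  | empty => exact zero'.congr fun v => Finset.sum_empty
  | insert i S n a => exact ((h i).add a).congr fun v => Finset.sum_insert n

theorem comp (h : Lp Q G s K Y) (k : Lp Q G s' K Z) : Lp Q G (s * s') K fun v => Y (Z v) := by
  obtain ⟨Y', a⟩ := h.adj
  obtain ⟨Z', b⟩ := k.adj
  refine ⟨⟨fun w => Z' (Y' w), fun v w => by rw [a, b]⟩, fun C g v p q => ?_, fun C g v p q => ?_⟩
  · rw [k.bos C g v p q, h.bos C g _ p q]
  · rw [k.fer C g v p q, h.lin.map_smul, h.fer C g _ p q, smul_smul, mul_comm]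

theorem bose (hB : Q.bose B) (hf : IsTest f) (k : tsupport f ⊆ K) : Lp Q G 1 K (B f) :=
  have ⟨B', _, e⟩ := Q.adj B (Q.bose_fld _ hB)
  ⟨⟨_, fun v w => e f v w hf⟩,
    fun C g v a b => Q.loc B C f g v hB (Q.bose_fld _ a) hf b.1 (sep_cc k b),
    fun C g v a b => (Q.loc B C f g v hB a.1 hf b.1 (sep_cc k b)).trans (one_smul _ _).symm⟩

theorem fermi (g : Gr Q G) (hB : Fer Q G B) (hf : IsTest f) (k : tsupport f ⊆ K) :
    Lp Q G (-1) K (B f) :=
  have ⟨B', _, e⟩ := Q.adj B hB.1
  ⟨⟨_, fun v w => e f v w hf⟩,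
    fun C h v a b => (Q.loc C B h f v a hB.1 b.1 hf (sep_symm (sep_cc k b))).symm,
    fun C h v a b => (g.anti B C f h v hB a hf b.1 (sep_cc k b)).trans (neg_one_smul _ _).symm⟩

theorem par (g : Gr Q G) {e : Bool} (hB : if e then Fer Q G B else Q.bose B) (hf : IsTest f)
    (k : tsupport f ⊆ K) : Lp Q G (if e then -1 else 1) K (B f) := by
  cases e
  exacts [bose hB hf k, fermi g hB hf k]

/-- **the vacuum is separating** -/
theorem zero (g : Gr Q G) (hK : IsCompact K) (h : Lp Q G s K Y) (z : Y Q.vac = 0) (v : D) :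
    Y v = 0 := by
  obtain ⟨r, hr⟩ := hK.isBounded.subset_closedBall 0
  have o : Metric.ball (bas 1 (2 * r + 3)) 1 ⊆ cc K := fun y hy x hx => by
    have h1 := fun i => (norm_le_pi_norm x i).trans (mem_closedBall_zero_iff.1 (hr hx))
    have h2 := fun i => (dist_le_pi_dist y _ i).trans (Metric.mem_ball.1 hy).le
    have x0 := abs_le.1 (h1 0)
    have x1 := abs_le.1 (h1 1)
    have y0 := abs_le.1 (h2 0)
    have y1 := abs_le.1 (h2 1)
    simp [bas] at y0 y1
    simp [mdot, Fin.sum_univ_four, eta, P352.GF.o]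
    nlinarith [mul_self_nonneg (x 2 - y 2), mul_self_nonneg (x 3 - y 3)]
  obtain ⟨Y', a⟩ := h.adj
  let S : Submodule ℂ (Completion D) := ⨅ w : D, (ℂ ∙ (Y' w : Completion D))ᗮ
  have m : ∀ u : D, (u : Completion D) ∈ S ↔ Y u = 0 := fun u => by
    simp only [S, Submodule.mem_iInf, Submodule.mem_orthogonal_singleton_iff_inner_left,
      Completion.inner_coe, ← a]
    exact ⟨fun k => inner_self_eq_zero.1 (k _), fun k w => by rw [k, inner_zero_left]⟩
  have := P352.BW.rs_sub Q (K := S) (by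
      rw [Submodule.coe_iInf]
      exact isClosed_iInter fun w => Submodule.isClosed_orthogonal _) ((m _).2 z)
    Metric.isOpen_ball ⟨_, Metric.mem_ball_self one_pos⟩ fun B f u hB hf hu => (m _).2 (by
      obtain ⟨C, C', c, c', e⟩ := g.split B hB
      have q : In (cc K) f := ⟨hf.1, hf.2.1, hf.2.2.trans o⟩
      rw [e f u hf.1, h.lin.map_add, h.bos C f u c q, h.fer C' f u c' q, (m u).1 hu,
        show C f 0 = 0 from map_zero (fm (Q.bose_fld _ c) q.1),
        show C' f 0 = 0 from map_zero (fm c'.1 q.1), smul_zero, add_zero])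
  exact (m v).1 (this ▸ Submodule.mem_top)

end Lp

/-- a field that annihilates the vacuum vanishes -/
theorem sepF (g : Gr Q G) (e : G Q.vac = Q.vac) (hB : Q.fld B)
    (z : ∀ f, IsTest f → B f Q.vac = 0) (hf : IsTest f) (v : D) : B f v = 0 := by
  obtain ⟨C, C', c, c', k⟩ := g.split B hB
  have hc : ∀ f, IsTest f → HasCompactSupport f → B f v = 0 := fun f hf hc => by
    have a := (k f _ hf).symm.trans (z f hf)
    have b := congrArg (gm g) a
    rw [map_add, map_zero, ← show C f (G Q.vac) = gm g _ from g.bose C f _ c hf,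
      show gm g (C' f Q.vac) = -C' f (G Q.vac) from (neg_eq_iff_eq_neg.2 (c'.2 f _ hf)).symm ▸
        rfl, e] at b
    rw [k f v hf, (Lp.bose c hf le_rfl).zero g hc ?_, (Lp.fermi g c' hf le_rfl).zero g hc ?_,
      add_zero]
    · linear_combination (norm := module) (2⁻¹ : ℂ) • a - (2⁻¹ : ℂ) • b
    · linear_combination (norm := module) (2⁻¹ : ℂ) • a + (2⁻¹ : ℂ) • b
  obtain ⟨F, rfl⟩ := P352.exists_fl hf
  obtain ⟨p, hp, l⟩ := P352.exists_compact_seq F
  exact tendsto_nhds_unique (((P352.fld_cont hB v).tendsto F).comp l)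
    (tendsto_const_nhds.congr fun n => (hc _ (P352.isTest_fl _) (P352.H246D.hcs_fl (hp n))).symm)

/-- densities of charges -/
def Dens (Q : Theory D) (j : Fld D) : Prop :=
  ∃ (n : ℕ) (C : Fin n → Fld D) (p : Fin n → Fn), (∀ i, Q.bose (C i)) ∧
    (∀ i g, IsTest g → IsTest fun x => p i x * g x) ∧
    ∀ g v, IsTest g → j g v = ∑ i, C i (fun x => p i x * g x) v

/-- sums of smeared fields -/
def Sm (Q : Theory D) (Z : D → D) : Prop :=
  ∃ (n : ℕ) (c : Fin n → ℂ) (B : Fin n → Fld D) (f : Fin n → Fn),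
    (∀ i, Q.fld (B i) ∧ In Set.univ (f i)) ∧ ∀ v, Z v = ∑ i, c i • B i (f i) v

theorem Sm.lp (g : Gr Q G) (h : Sm Q Z) {e : Bool}
    (p : ∀ v, Z (G v) = (if e then -1 else 1 : ℂ) • G (Z v)) :
    ∃ K, IsCompact K ∧ Lp Q G (if e then -1 else 1) K Z := by
  obtain ⟨n, c, B, f, a, b⟩ := h
  choose C C' c1 c2 c3 using fun i => g.split _ (a i).1
  have s : ∀ i, tsupport (f i) ⊆ ⋃ i, tsupport (f i) := fun i => Set.subset_iUnion (fun i => tsupport (f i)) i
  have l1 := Lp.sum (G := G) Finset.univ fun i => (Lp.bose (c1 i) (a i).2.1 (s i)).smul (c i)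
  have l2 := Lp.sum Finset.univ fun i => (Lp.fermi g (c2 i) (a i).2.1 (s i)).smul (c i)
  have e1 : ∀ v, Z v = ∑ i, c i • C i (f i) v + ∑ i, c i • C' i (f i) v := fun v => by
    simp only [b, c3 _ _ _ (a _).2.1, smul_add, Finset.sum_add_distrib]
  have e2 : ∀ v, gm g (Z (G v)) = ∑ i, c i • C i (f i) v - ∑ i, c i • C' i (f i) v := fun v => by
    have gg : ∀ u, gm g (G u) = u := g.inv
    simp only [e1, map_add, map_sum, map_smul, fun i => g.bose _ _ v (c1 i) (a i).2.1,
      fun i => (c2 i).2 _ v (a i).2.1, map_neg, gg, smul_neg, Finset.sum_neg_distrib,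
      sub_eq_add_neg]
  refine ⟨_, isCompact_iUnion fun i => (a i).2.2.1, ?_⟩
  have e3 := fun v => (e2 v).symm.trans (congrArg (gm g) (p v))
  simp only [map_smul, show ∀ u, gm g (G u) = u from g.inv] at e3
  cases e
  · refine l1.congr fun v => ?_
    have := e3 v
    simp only [Bool.false_eq_true, if_false] at this
    linear_combination (norm := module) (2⁻¹ : ℂ) • e1 v - (2⁻¹ : ℂ) • this
  · refine l2.congr fun v => ?_
    have := e3 v
    simp only [if_true] at this
    linear_combination (norm := module) (2⁻¹ : ℂ) • e1 v + (2⁻¹ : ℂ) • this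

theorem Dens.lp (h : Dens Q j) {g : Fn} (hg : IsTest g) : Lp Q G 1 (tsupport g) (j g) :=
  have ⟨_, C, p, a, b, c⟩ := h
  (Lp.sum Finset.univ fun i => Lp.bose (a i) (b i g hg) tsupport_mul_subset_right).congr
    fun v => c g v hg

theorem cut_test {F : ℝ → Fn} (hF : IsCutoff F) {r : ℝ} (hr : 0 < r) : IsTest (F r) :=
  have ⟨_, _, _, _, _, _, k⟩ := hF
  (k r hr).1

/-- the commutators with a charge do not depend on a large cutoff -/
theorem Dens.const (h : Dens Q j) (hB : Q.fld B) (hf : In Set.univ f) {F : ℝ → Fn}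
    (hF : IsCutoff F) : ∃ r0 > 0, ∀ r r', r0 ≤ r → r0 ≤ r' → ∀ v,
      cm j (F r) B f v = cm j (F r') B f v := by
  obtain ⟨n, C, p, a, b, c⟩ := h
  obtain ⟨r0, h0, k⟩ := P352X.Fss.far hF hf.2.1
  refine ⟨r0, h0, fun r r' hr hr' v => ?_⟩
  have t := cut_test hF (h0.trans_le hr)
  have t' := cut_test hF (h0.trans_le hr')
  have l : ∀ u, B f u = fm hB hf.1 u := fun _ => rfl
  simp only [cm, c _ _ t, c _ _ t']
  rw [l (∑ i, _), l (∑ i, _), map_sum, map_sum, ← Finset.sum_sub_distrib, ← Finset.sum_sub_distrib]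
  exact Finset.sum_congr rfl fun i _ => P352X.Fss.cm_eq (a i) hB hf.1 (b i _ t) (b i _ t')
    (k r r' hr hr' _ fun x e => by simp [e]) v

/-- **from the vacuum to all vectors** -/
theorem op_of_vac (g : Gr Q G) (hj : Dens Q j) (e : Bool) (hB : if e then Fer Q G B else Q.bose B)
    (hf : In Set.univ f) (hZ : Sm Q Z)
    (pZ : ∀ v, Z (G v) = (if e then -1 else 1 : ℂ) • G (Z v)) {F : ℝ → Fn} (hF : IsCutoff F)
    (lim : ∀ w, Tendsto (fun r => inner ℂ w (cm j (F r) B f Q.vac)) atTop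
      (𝓝 (inner ℂ w (Z Q.vac)))) : ∀ᶠ r in atTop, ∀ v, cm j (F r) B f v = Z v := by
  have b : Q.fld B := by
    cases e
    exacts [Q.bose_fld _ hB, hB.1]
  obtain ⟨r0, h0, k⟩ := hj.const b hf hF
  obtain ⟨K, hK, l⟩ := hZ.lp g pZ
  filter_upwards [eventually_ge_atTop r0, Tn.cut_cpt hF] with r hr c v
  have l1 := (hj.lp (G := G) c.1).mono (K' := tsupport (F r) ∪ tsupport f ∪ K)
    (Set.subset_union_left.trans Set.subset_union_left)
  have l2 := Lp.par (K := tsupport (F r) ∪ tsupport f ∪ K) g hB hf.1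
    (Set.subset_union_right.trans Set.subset_union_left)
  have l3 := l1.comp l2
  have l4 := l2.comp l1
  rw [one_mul] at l3
  rw [mul_one] at l4
  refine sub_eq_zero.1 (((l3.sub l4).sub (l.mono Set.subset_union_right)).zero g
    ((c.2.1.isCompact.union hf.2.1).union hK) (sub_eq_zero.2 (ext_inner_left ℂ fun w => ?_)) v)
  exact tendsto_nhds_unique (tendsto_const_nhds.congr'
    ((eventually_ge_atTop r0).mono fun r' hr' => congrArg _ (k r r' hr hr' _))) (lim w)

theorem dens_one (h : Q.bose C) : Dens Q C :=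
  ⟨1, fun _ => C, fun _ _ => 1, fun _ => h, fun _ g hg => by simpa using hg,
    fun g v _ => by simp⟩

theorem dens_cur {T : Ix → Ix → Fld D} (h : ∀ m n, Q.bose (T m n)) {r : ℝ} {X : V → V}
    (hX : IsSim r X) : Dens Q (cur T X) := by
  refine ⟨4, T o, fun n x => (eta n : ℂ) * X x n, h o, fun n g hg => ?_, fun _ _ _ => rfl⟩
  obtain ⟨c, w, -, h⟩ := hX
  refine P352X.Ap.sw_congr (P352X.Ap.sw_cmul (eta n) (P352X.Ap.sw_rmul (u := fun x => X x n) ?_ hg))
    fun x => mul_assoc _ _ _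
  simp only [h]
  fun_prop

theorem Dens.sub (h : Dens Q j) (k : Dens Q j') : Dens Q fun g v => j g v - j' g v := by
  obtain ⟨n, C, p, a, b, c⟩ := h
  obtain ⟨n', C', p', a', b', c'⟩ := k
  refine ⟨n + n', Fin.append C C', Fin.append p fun i x => -1 * p' i x, fun i => ?_,
    fun i g hg => ?_, fun g v hg => ?_⟩
  · refine Fin.addCases (fun i => ?_) (fun i => ?_) i
    · rw [Fin.append_left]; exact a i
    · rw [Fin.append_right]; exact a' i
  · refine Fin.addCases (fun i => ?_) (fun i => ?_) i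
    · rw [Fin.append_left]; exact b i g hg
    · rw [Fin.append_right]
      simp only [mul_assoc]
      exact P352X.Ap.sw_cmul (-1) (b' i g hg)
  · simp only [Fin.sum_univ_add, Fin.append_left, Fin.append_right, mul_assoc, c g v hg, c' g v hg,
      fun i => P352X.Fss.lin1 (Q.bose_fld _ (a' i)) (b' i g hg), neg_one_smul,
      Finset.sum_neg_distrib, sub_eq_add_neg]

theorem sm_zero : Sm Q fun _ => 0 :=
  ⟨0, fun _ => 0, fun _ => 0, fun _ => 0, fun i => i.elim0, fun _ => by simp⟩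

end

end Vale.Agent.N352.F
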