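import Vale.Agent.N352.F.Pg
import Vale.Agent.N352.U.Vf

/-!
# N352, block F: a virial current forbids spontaneous breaking, without a net (helper72)
-/

set_option linter.all false

namespace Vale.Agent.N352.F

open P352 P352.GF P352R P352R.P P352X

variable {D : Type*} [NormedAddCommGroup D] [InnerProductSpace ℂ D] {Q : Theory D} {G : D → D}
  {A : (V → V) → D → D} {T : Ix → Ix → Fld D} {J : Ix → Fld D}

/-- the context of a graded theory -/
noncomputable def cfg (g : GI.Ge Q G A) : E.Cf D :=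
  ⟨Q, G, A, jc ((gm g.toGr).isometryOfInner fun v w => (g.herm _ _).trans (congrArg _ (g.inv w))),
    Br.gr.1 g.toGr, g.vac, g.add, g.der, fun v => jc_coe v⟩

theorem ivac_vc (g : GI.Ge Q G A) (c : U.Vr.Cd Q) (hT : ∀ m n, Q.bose (T m n)) (hP : P.PCh Q T A)
    {j : Fld D} (b : Q.bose j) (h : U.Vr.Vc Q T A j) : Dn.IVac Q :=
  U.Vr.ivac (c := cfg g) c (U.Vr.cn_free c) hT hP b h

theorem ivac_free (g : GI.Ge Q G A) (m : P.MfA Q) (l : P.FSL Q) (hT : ∀ m n, Q.bose (T m n))
    (hP : P.PCh Q T A) (h : Dn.Vir Q T J) : Dn.IVac Q :=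
  ivac_vc g (fun s y hs => Pf.cova (Br.gr.1 g.toGr) (Br.mfa.1 m) l s _ y hs lor1) hT hP (h.bose o)
    (vc_of g l hT h)

end Vale.Agent.N352.F
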